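import Vale.Agent.P313.H463.UD.Core

/-!
Universal derandomization: advice words in front of the input.
-/

namespace Vale.Agent.P313.UD

open Finset Sel

/-- The input `y` with the advice word `α` in front of it: each bit of `α` is preceded by a one,
and a zero marks the end of `α`. -/
def adv : List Bool → List Bool → List Bool
  | [], y => false :: y
  | b :: α, y => true :: b :: adv α y

theorem length_adv (α y : List Bool) : (adv α y).length = 2 * α.length + 1 + y.length := by
  induction α with
  | nil => simp only [adv, List.length_cons, List.length_nil]; omega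
  | cons b α ih => simp only [adv, List.length_cons, ih]; omega

/-- The word of length `l` with the binary digits of `a`. -/
def aw : ℕ → ℕ → List Bool
  | 0, _ => []
  | l + 1, a => decide (a % 2 = 1) :: aw l (a / 2)

theorem length_aw (l : ℕ) : ∀ a, (aw l a).length = l := by
  induction l with
  | zero => intro a; rfl
  | succ l ih => intro a; simp only [aw, List.length_cons, ih]

theorem exists_aw (α : List Bool) : ∃ a, a < 2 ^ α.length ∧ aw α.length a = α := by
  induction α with
  | nil => exact ⟨0, by simp, rfl⟩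
  | cons b α ih =>
    obtain ⟨a, ha, h⟩ := ih
    refine ⟨2 * a + b.toNat, ?_, ?_⟩
    · have : b.toNat ≤ 1 := Bool.toNat_le b
      simp only [List.length_cons, pow_succ]
      omega
    · have h1 : (2 * a + b.toNat) / 2 = a := by
        have : b.toNat ≤ 1 := Bool.toNat_le b
        omega
      have h2 : decide ((2 * a + b.toNat) % 2 = 1) = b := by
        cases b
        · simp
        · simp
      simp only [List.length_cons, aw, h1, h2, h]

/-- Symbols of the input with the advice word `aw l a` in front, from the symbols `ys` of the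
input. -/
def asy (l a : ℕ) (ys : ℕ → ℕ) (p : ℕ) : ℕ :=
  if p = 0 then 0
  else if p - 1 < 2 * l then
    (if (p - 1) % 2 = 0 then 3 else if a / 2 ^ ((p - 1) / 2) % 2 = 1 then 3 else 2)
  else if p - 1 = 2 * l then 2
  else ys (p - 1 - 2 * l)

theorem inSym_cons_succ (b : Bool) (y : List Bool) (p : ℕ) :
    inSym (b :: y) (p + 2) = inSym y (p + 1) := by
  simp [inSym]

theorem inSym_cons_one (b : Bool) (y : List Bool) : inSym (b :: y) 1 = InSym.bit b := by
  simp [inSym]

theorem asy_eq (y : List Bool) : ∀ (l a p : ℕ),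
    syc (inSym (adv (aw l a) y) p) = asy l a (fun p => syc (inSym y p)) p := by
  intro l
  induction l with
  | zero =>
    intro a p
    simp only [aw, adv]
    rcases p with _ | _ | p
    · simp [inSym, asy, syc]
    · rw [Nat.zero_add, inSym_cons_one]
      simp [asy, syc]
    · rw [inSym_cons_succ]
      simp [asy]
  | succ l ih =>
    intro a p
    simp only [aw, adv]
    rcases p with _ | _ | _ | p
    · simp [inSym, asy, syc]
    · rw [Nat.zero_add, inSym_cons_one]
      simp [asy, syc]
    · have : inSym (true :: decide (a % 2 = 1) :: adv (aw l (a / 2)) y) (0 + 1 + 1) =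
          InSym.bit (decide (a % 2 = 1)) := by
        rw [show 0 + 1 + 1 = 0 + 2 from rfl, inSym_cons_succ, Nat.zero_add, inSym_cons_one]
      rw [this]
      by_cases h : a % 2 = 1
      · simp [asy, syc, h]
        intro h2
        omega
      · simp [asy, syc, h]
        intro h2
        omega
    · rw [show p + 1 + 1 + 1 = (p + 1) + 2 from rfl, inSym_cons_succ,
        show p + 1 + 1 = p + 2 from rfl, inSym_cons_succ, ih]
      unfold asy
      have e1 : (p + 1 + 2 - 1) % 2 = (p + 1 - 1) % 2 := by omega
      have e2 : (p + 1 + 2 - 1) / 2 = (p + 1 - 1) / 2 + 1 := by omega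
      have e3 : a / 2 ^ ((p + 1 - 1) / 2 + 1) = a / 2 / 2 ^ ((p + 1 - 1) / 2) := by
        rw [pow_succ', Nat.div_div_eq_div_mul]
      have e4 : p + 1 + 2 - 1 - 2 * (l + 1) = p + 1 - 1 - 2 * l := by omega
      rw [e1, e2, e3, e4]
      have g0 : ¬ (p + 1 = 0) := by omega
      have g1 : ¬ (p + 1 + 2 = 0) := by omega
      by_cases h1 : p + 1 - 1 < 2 * l
      · have g2 : p + 1 + 2 - 1 < 2 * (l + 1) := by omega
        simp only [if_neg g0, if_neg g1, if_pos g2, if_pos h1]
      · have g2 : ¬ (p + 1 + 2 - 1 < 2 * (l + 1)) := by omega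
        by_cases h2 : p + 1 - 1 = 2 * l
        · have g3 : p + 1 + 2 - 1 = 2 * (l + 1) := by omega
          simp only [if_neg g0, if_neg g1, if_neg g2, if_neg h1, if_pos h2, if_pos g3]
        · have g3 : ¬ (p + 1 + 2 - 1 = 2 * (l + 1)) := by omega
          simp only [if_neg g0, if_neg g1, if_neg g2, if_neg h1, if_neg h2, if_neg g3]

/-- `y` itself, or `y` with an advice word in front. -/
def xw (l a : ℕ) (y : List Bool) : List Bool := if l = 0 then y else adv (aw (l - 1) a) y

/-- Symbols of `xw`. -/
def xsy (l a : ℕ) (ys : ℕ → ℕ) (p : ℕ) : ℕ := if l = 0 then ys p else asy (l - 1) a ys p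

/-- Length of `xw`. -/
def xlen (l n : ℕ) : ℕ := if l = 0 then n else 2 * (l - 1) + 1 + n

theorem xsy_eq (l a : ℕ) (y : List Bool) (p : ℕ) :
    syc (inSym (xw l a y) p) = xsy l a (fun p => syc (inSym y p)) p := by
  unfold xw xsy
  split_ifs
  · rfl
  · exact asy_eq y _ _ _

theorem xlen_eq (l a : ℕ) (y : List Bool) : (xw l a y).length = xlen l y.length := by
  unfold xw xlen
  split_ifs
  · rfl
  · rw [length_adv, length_aw]

theorem lf_xlen {k : ℕ} {l n : Fn k} (hl : LF l) (hn : LF n) :
    LF (fun x a => xlen (l x a) (n x a)) := by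
  unfold xlen
  exact LF.ite (LFP.eq hl (LF.const 0)) hn
    ((((LF.const 2).mul (hl.sub (LF.const 1))).add (LF.const 1)).add hn)

/-- Symbols are in `LF`. -/
theorem lf_xsy {k : ℕ} {l a p : Fn k} {ys : Fn (k + 1)} (hl : LF l) (ha : LF a) (hp : LF p)
    (hy : LF ys) :
    LF (fun x b => xsy (l x b) (a x b) (fun q => ys x (Fin.cons q b)) (p x b)) := by
  have h1 : LF (fun x b => ys x (Fin.cons (p x b) b)) := hy.subst hp
  have h2 : LF (fun x b => ys x (Fin.cons (p x b - 1 - 2 * (l x b - 1)) b)) :=
    hy.subst ((hp.sub (LF.const 1)).sub ((LF.const 2).mul (hl.sub (LF.const 1))))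
  unfold xsy asy
  have hq : LF (fun x b => p x b - 1) := hp.sub (LF.const 1)
  have hl2 : LF (fun x b => 2 * (l x b - 1)) := (LF.const 2).mul (hl.sub (LF.const 1))
  exact LF.ite (LFP.eq hl (LF.const 0)) h1
    (LF.ite (LFP.eq hp (LF.const 0)) (LF.const 0)
      (LF.ite (LFP.lt hq hl2)
        (LF.ite (LFP.eq (hq.mod (LF.const 2)) (LF.const 0)) (LF.const 3)
          (LF.ite (LFP.eq ((LF.divPow (LF.const 2) ha (hq.div (LF.const 2))).mod (LF.const 2))
            (LF.const 1)) (LF.const 3) (LF.const 2)))
        (LF.ite (LFP.eq hq hl2) (LF.const 2) h2)))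

end Vale.Agent.P313.UD
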