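import Vale.Agent.P313.H463.UD.Fin2
import Vale.Agent.P313.NW.H427L.Fin4

/-!
Universal derandomization: the fallback with the exact exponent.
-/

namespace Vale.Agent.P313.UD

theorem fallback_ge_x (n : ℕ) :
    Real.logb 2 (n + 2) ≤ Real.logb 2 (n + 2) ^ ((4 : ℝ) / 3) := by
  have h1 := one_le_logb n
  calc Real.logb 2 ((n : ℝ) + 2) = Real.logb 2 (n + 2) ^ (1 : ℝ) := by rw [Real.rpow_one]
    _ ≤ _ := Real.rpow_le_rpow_of_exponent_le h1 (by norm_num)

/-- The unconditional derandomization in space `log ^ (4/3)`. -/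
theorem fallback43x : Fallback (fun n => Real.logb 2 (n + 2) ^ ((4 : ℝ) / 3)) := by
  intro M c hM
  obtain ⟨A, D, e, hD, hA⟩ := Vale.Agent.P313.NW.ZL.all_coins 3 (a := 1) (b := 2)
    (by norm_num) hM
  have hgap : ∀ x : List Bool, (1 : ℚ) / (x.length + 2) ^ 3 ≤ 1 / 8 := by
    intro x
    apply one_div_le_one_div_of_le (by norm_num)
    have h1 : (2 : ℚ) ≤ (x.length : ℚ) + 2 := by
      have : (0 : ℚ) ≤ x.length := Nat.cast_nonneg _
      linarith
    calc (8 : ℚ) = 2 ^ 3 := by norm_num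
      _ ≤ ((x.length : ℚ) + 2) ^ 3 := pow_le_pow_left₀ (by norm_num) h1 3
  refine ⟨A, D, e, hD, fun x => ⟨fun h => (hA x).1 (le_trans ?_ h), fun h =>
    (hA x).2 (h.trans ?_)⟩⟩
  · have := hgap x
    push_cast
    linarith
  · have := hgap x
    push_cast
    linarith

end Vale.Agent.P313.UD
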