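import Vale.Agent.P313.DefsTS

/-!
Definitions for the statement of the hand-in `UniversalDerandomizer`: questions about explicit
chains, deterministic machines with advice, space bounds for promise-`BPL`.
-/

namespace Vale.Agent.P313.UDS

/-- The chain `cs` goes from `v` to `cs v 0` or to `cs v 1`, with probability `1/2` each. The
probability that it is in `w` after `j` steps from `v`. -/
def hit (cs : ℕ → ℕ → ℕ) (w : ℕ) : ℕ → ℕ → ℚ
  | 0, v => if v = w then 1 else 0
  | j + 1, v => (hit cs w j (cs v 0) + hit cs w j (cs v 1)) / 2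

/-- The rows of a question: the start `s0`, the time `t`, the state `u`, the numbers `k` and `K`,
and then the successors of the states. -/
def rows (cs : ℕ → ℕ → ℕ) (s0 K t u k r : ℕ) : ℕ :=
  if r = 0 then s0 else if r = 1 then t else if r = 2 then u else if r = 3 then k
  else if r = 4 then K else cs ((r - 5) / 2) ((r - 5) % 2)

/-- The word for a question: `B` ones, a zero, and `5 + 2 B` rows of length `B`; row `r` holds
the number `rows cs s0 K t u k r` in unary. -/
def qw (B : ℕ) (cs : ℕ → ℕ → ℕ) (s0 K t u k : ℕ) : List Bool :=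
  (List.range (B + 1 + (5 + 2 * B) * B)).map (fun p => decide (p < B ∨
    (B + 1 ≤ p ∧ (p - (B + 1)) % B < rows cs s0 K t u k ((p - (B + 1)) / B))))

/-- The data of a question: a chain on the states below `B`, all numbers at most `B`. -/
def Valid (B : ℕ) (cs : ℕ → ℕ → ℕ) (s0 K t u k : ℕ) : Prop :=
  (∀ v < B, ∀ b < 2, cs v b < B) ∧ s0 < B ∧ t ≤ B ∧ u < B ∧ k < K ∧ K ≤ B

/-- The word `y` is a question about an explicit chain. -/
def ChainQuery (y : List Bool) : Prop :=
  ∃ (B : ℕ) (cs : ℕ → ℕ → ℕ) (s0 K t u k : ℕ), Valid B cs s0 K t u k ∧ y = qw B cs s0 K t u k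

/-- The randomized machine `R` answers the questions about chains (its running time has exponent
`c`): it accepts with probability at least `2/3` if the chain started in `s0` is in `u` after `t`
steps with probability at least `(k + 1) / K`, and at most `1/3` if at most `k / K`. -/
def Answers (R : RTM) (c : ℕ) : Prop :=
  ∀ (B : ℕ) (cs : ℕ → ℕ → ℕ) (s0 K t u k : ℕ), Valid B cs s0 K t u k →
    (((k : ℚ) + 1) / K ≤ hit cs u t s0 →
      2 / 3 ≤ R.probAt (qw B cs s0 K t u k) true (((qw B cs s0 K t u k).length + 2) ^ c) 0
        R.init) ∧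
    (hit cs u t s0 ≤ (k : ℚ) / K →
      R.probAt (qw B cs s0 K t u k) true (((qw B cs s0 K t u k).length + 2) ^ c) 0
        R.init ≤ 1 / 3)

/-- `D`, given `w` as input, halts, visits at most `s` cells of each work tape, and its verdict is
right for the promise problem of the randomized machine `R` (whose running time has exponent `c`)
and the input `y`: accept if `R` accepts `y` with probability at least `2/3`, reject if at most
`1/3`. -/
def SolvesFor (D R : RTM) (c : ℕ) (y w : List Bool) (s : ℕ) : Prop :=
  ∃ r : Bool,
    (∀ ω : ℕ → Bool, (∃ t, D.verdict (D.run w ω t).state = some r) ∧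
      ∀ t i, ((D.run w ω t).work i).cells ≤ s) ∧
    (2 / 3 ≤ R.probAt y true ((y.length + 2) ^ c) 0 R.init → r = true) ∧
    (R.probAt y true ((y.length + 2) ^ c) 0 R.init ≤ 1 / 3 → r = false)

/-- The input `y` with the advice word `α` in front of it: each bit of `α` is preceded by a one,
and a zero marks the end of `α`. -/
def adv : List Bool → List Bool → List Bool
  | [], y => false :: y
  | b :: α, y => true :: b :: adv α y

/-- Space bounds: nondecreasing, at least logarithmic, and of the same order on inputs which are
polynomially longer. -/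
def Nice (S : ℕ → ℝ) : Prop :=
  Monotone S ∧ (∀ n : ℕ, Real.logb 2 (n + 2) ≤ S n) ∧
    ∀ k : ℕ, ∃ C : ℝ, ∀ n : ℕ, S ((n + 2) ^ k) ≤ C * S n

/-- Every promise problem in `BPL` is in deterministic space `O(S)`: for every randomized machine
`M` which works in logarithmic space and polynomial time for all random bits there is a
deterministic machine which halts on every input, visits `O(S)` cells, and accepts if `M` accepts
with probability at least `2/3` and rejects if `M` accepts with probability at most `1/3`. -/
def PromiseBPLIn (S : ℕ → ℝ) : Prop :=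
  ∀ (M : RTM) (c : ℕ), M.Bounded (fun n => (n + 2) ^ c) (fun n => c * Nat.log 2 (n + 2)) →
    ∃ (D : RTM) (e : ℝ), D.Deterministic ∧ ∀ x : List Bool, ∃ r : Bool,
      (∀ ω : ℕ → Bool, (∃ t, D.verdict (D.run x ω t).state = some r) ∧
        ∀ t i, (((D.run x ω t).work i).cells : ℝ) ≤ e * S x.length) ∧
      (2 / 3 ≤ M.probAt x true ((x.length + 2) ^ c) 0 M.init → r = true) ∧
      (M.probAt x true ((x.length + 2) ^ c) 0 M.init ≤ 1 / 3 → r = false)

/-- Every promise problem in `BPL` is in deterministic space `O(S)` with `O(S)` bits of advice: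
as before, but the deterministic machine gets as input `adv α x`, where `α` is a word of length
`O(S)` which depends only on the length of `x`. -/
def PromiseBPLInAdvice (S : ℕ → ℝ) : Prop :=
  ∀ (M : RTM) (c : ℕ), M.Bounded (fun n => (n + 2) ^ c) (fun n => c * Nat.log 2 (n + 2)) →
    ∃ (D : RTM) (e : ℝ), D.Deterministic ∧ ∀ n : ℕ, ∃ α : List Bool,
      (α.length : ℝ) ≤ e * S n ∧ ∀ x : List Bool, x.length = n → ∃ r : Bool,
        (∀ ω : ℕ → Bool, (∃ t, D.verdict (D.run (adv α x) ω t).state = some r) ∧
          ∀ t i, (((D.run (adv α x) ω t).work i).cells : ℝ) ≤ e * S n) ∧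
        (2 / 3 ≤ M.probAt x true ((x.length + 2) ^ c) 0 M.init → r = true) ∧
        (M.probAt x true ((x.length + 2) ^ c) 0 M.init ≤ 1 / 3 → r = false)

end Vale.Agent.P313.UDS
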