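import Vale.Agent.P313.H463.UD.Fin5
import Vale.Agent.P313.H463.UD.Stmt
import Vale.Agent.P313.H463.UD.FbX
import Vale.Agent.P313.H72.UD.B4
import Vale.Agent.P313.H589.UD.C1
import Vale.Agent.P313.H589.UD.U1
import Vale.Agent.P313.H590.UD.Walk
import Vale.Agent.P313.H531.UD.V
import Vale.Agent.P313.H531.UD.U2
import Vale.Agent.P313.H602.UD.C3
import Vale.Agent.P313.H215.UD.C2

/-!
Universal derandomization: from the internal definitions to the definitions of the statement.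
-/

namespace Vale.Agent.P313.UDS

theorem hit_eq (cs : ℕ → ℕ → ℕ) (w : ℕ) : ∀ j v, hit cs w j v =
    Vale.Agent.P313.hit (UD.toB cs) w j v := by
  intro j
  induction j with
  | zero => intro v; rfl
  | succ j ih =>
    intro v
    change (hit cs w j (cs v 0) + hit cs w j (cs v 1)) / 2 =
      (Vale.Agent.P313.hit (UD.toB cs) w j (UD.toB cs v false) +
        Vale.Agent.P313.hit (UD.toB cs) w j (UD.toB cs v true)) / 2
    rw [ih, ih]
    rfl

theorem qw_eq (B : ℕ) (cs : ℕ → ℕ → ℕ) (s0 K t u k : ℕ) :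
    qw B cs s0 K t u k = UD.qw B cs s0 K t u k := rfl

theorem adv_eq : ∀ α y : List Bool, adv α y = UD.adv α y := by
  intro α
  induction α with
  | nil => intro y; rfl
  | cons b α ih =>
    intro y
    change true :: b :: adv α y = true :: b :: UD.adv α y
    rw [ih]

theorem query_of {y : List Bool} (h : UD.ChainQuery y) : ChainQuery y := by
  obtain ⟨B, cs, s0, K, t, u, k, h1, h2, h3, h4, h5, h6, h7⟩ := h
  exact ⟨B, cs, s0, K, t, u, k, ⟨h1, h2, h3, h4, h5, h6⟩, h7⟩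

theorem answers_of {R : RTM} {c : ℕ} (h : UD.WalkOk R c) : Answers R c := by
  intro B cs s0 K t u k hv
  have := h B cs s0 K t u k hv.1 hv.2.1 hv.2.2.1 hv.2.2.2.1 hv.2.2.2.2.1 hv.2.2.2.2.2
  rw [← hit_eq] at this
  exact this

theorem solvesFor_iff {D R : RTM} {c : ℕ} {y w : List Bool} {s : ℕ} :
    SolvesFor D R c y w s ↔ UD.SolvesFor D R c y w s := Iff.rfl

theorem nice_iff {S : ℕ → ℝ} : Nice S ↔ UD.Nice S :=
  ⟨fun h => ⟨h.1, h.2.1, h.2.2⟩, fun h => ⟨h.mono, h.log_le, h.poly⟩⟩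

theorem in_iff {S : ℕ → ℝ} : PromiseBPLIn S ↔ UD.PromiseBPLIn S := Iff.rfl

theorem advice_iff {S : ℕ → ℝ} : PromiseBPLInAdvice S ↔ UD.PromiseBPLInAdvice S := by
  unfold PromiseBPLInAdvice UD.PromiseBPLInAdvice
  simp only [adv_eq]

/-- The bound of the unconditional derandomization. -/
theorem bpl_four_thirds (A : Set (List Bool)) (h : BPL A) : ∃ (D : RTM) (e : ℝ),
    D.Decides A (fun n => (2 : ℝ) ^ (e * Real.logb 2 (n + 2) ^ ((4 : ℝ) / 3)))
      (fun n => e * Real.logb 2 (n + 2) ^ ((4 : ℝ) / 3)) := by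
  obtain ⟨M, c, hM, hP⟩ := h
  obtain ⟨A', D, e, hD, hA⟩ := UD.fallback43x M c hM
  have h1 : A = A' := by
    ext x
    constructor
    · intro hx
      exact (hA x).1 ((hP x).1 hx)
    · intro hx
      by_contra hx2
      exact (hA x).2 ((hP x).2 hx2) hx
  rw [h1]
  exact ⟨D, e, hD⟩

/-- The universal derandomizer. -/
theorem universal :
    ∃ (R : RTM) (c0 : ℕ), R.Bounded (fun n => (n + 2) ^ c0) (fun n => c0 * Nat.log 2 (n + 2)) ∧
      Answers R c0 ∧
      (∀ (M : RTM) (c : ℕ),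
        M.Bounded (fun n => (n + 2) ^ c) (fun n => c * Nat.log 2 (n + 2)) →
        ∃ (D : RTM) (A : Set (List Bool)) (Q : List Bool → Set (List Bool)) (d : ℕ),
          (∃ e : ℝ, D.Decides A
            (fun n => (2 : ℝ) ^ (e * Real.logb 2 (n + 2) ^ ((4 : ℝ) / 3)))
            (fun n => e * Real.logb 2 (n + 2) ^ ((4 : ℝ) / 3))) ∧
          (∀ x : List Bool,
            (2 / 3 ≤ M.probAt x true ((x.length + 2) ^ c) 0 M.init → x ∈ A) ∧
            (M.probAt x true ((x.length + 2) ^ c) 0 M.init ≤ 1 / 3 → x ∉ A)) ∧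
          (∀ x, ∀ y ∈ Q x, ChainQuery y ∧ y.length ≤ (x.length + 2) ^ d) ∧
          (∀ D' : RTM, D'.Deterministic → ∃ e : ℕ, ∀ (x : List Bool) (s : ℕ),
            ((∀ y ∈ Q x, SolvesFor D' R c0 y y s) ∨
              ∃ α : List Bool, α.length ≤ s ∧ ∀ y ∈ Q x, SolvesFor D' R c0 y (adv α y) s) →
            ∀ ω : ℕ → Bool,
              (∀ t, 2 ^ (e * (s + Nat.log 2 (x.length + 2))) ≤ t →
                (x ∈ A → D.verdict (D.run x ω t).state = some true) ∧
                (x ∉ A → D.verdict (D.run x ω t).state = some false)) ∧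
              ∀ t i, ((D.run x ω t).work i).cells ≤ e * (s + Nat.log 2 (x.length + 2))) ∧
          (∀ S : ℕ → ℝ, Nice S → PromiseBPLIn S ∨ PromiseBPLInAdvice S →
            ∃ e : ℝ, D.Decides A (fun n => (2 : ℝ) ^ (e * S n)) (fun n => e * S n))) ∧
      (∃ (U : RTM) (B : Set (List Bool)) (e : ℝ),
        U.Decides B
          (fun n => (2 : ℝ) ^ (e * Real.logb 2 (n + 2) ^ ((4 : ℝ) / 3)))
          (fun n => e * Real.logb 2 (n + 2) ^ ((4 : ℝ) / 3)) ∧
        (∀ x : List Bool,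
          (2 / 3 ≤ R.probAt x true ((x.length + 2) ^ c0) 0 R.init → x ∈ B) ∧
          (R.probAt x true ((x.length + 2) ^ c0) 0 R.init ≤ 1 / 3 → x ∉ B)) ∧
        ∀ S : ℕ → ℝ, Nice S → (PromiseBPLIn S ↔ ∃ e : ℝ, ∀ (x : List Bool) (ω : ℕ → Bool)
          (t : ℕ) (i : Fin U.tapes), (((U.run x ω t).work i).cells : ℝ) ≤ e * S x.length) ∧
          (PromiseBPLInAdvice S → PromiseBPLIn S)) := by
  obtain ⟨R, c0, hRb, hR⟩ := UD.W.walkMachine UD.B.coinCompile UD.V.wordSpec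
  refine ⟨R, c0, hRb, answers_of hR, fun M c hM => ?_, ?_⟩
  · obtain ⟨D, A, Q, d, h1, h2, h3, h4, h5⟩ := UD.part1q UD.V.wordSpec UD.U1.usimSpec
      UD.U2.usimLF UD.C1.chkSound UD.C2.chkComplete UD.chkLF hR hRb UD.fallback_ge_x
      UD.fallback43x hM
    refine ⟨D, A, Q, d, h1, h2, fun x y hy => ⟨query_of (h3 x y hy).1, (h3 x y hy).2⟩,
      fun D' hD' => ?_, fun S hS h => ?_⟩
    · obtain ⟨e, he⟩ := h4 D' hD'
      refine ⟨e, fun x s hq => he x s ?_⟩
      rcases hq with hq | ⟨α, hα, hq⟩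
      · exact Or.inl hq
      · refine Or.inr ⟨α, hα, fun y hy => ?_⟩
        rw [← adv_eq]
        exact hq y hy
    · exact h5 S (nice_iff.1 hS) (h.imp in_iff.1 advice_iff.1)
  · obtain ⟨U, B, e, h1, h2, h3⟩ := UD.part2a UD.V.wordSpec UD.U1.usimSpec
      UD.U2.usimLF UD.C1.chkSound UD.C2.chkComplete UD.chkLF hR hRb UD.fallback_ge_x
      UD.fallback43x
    refine ⟨U, B, e, h1, h2, fun S hS => ?_⟩
    obtain ⟨h4, h5⟩ := h3 S (nice_iff.1 hS)
    exact ⟨h4, fun h => h5 (advice_iff.1 h)⟩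

theorem nice_log {a : ℝ} (ha : 1 ≤ a) : Nice (fun n => Real.logb 2 (n + 2) ^ a) :=
  nice_iff.2 (UD.nice_log ha)

end Vale.Agent.P313.UDS
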