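import Vale.Agent.P313.H463.UD.Main

/-!
Universal derandomization: the machine for a given randomized machine, its correctness and its
optimality on every input.
-/

namespace Vale.Agent.P313.UD

open Finset Sel

/-- `D` halts on `x` with verdict `r` within `2 ^ s` steps and visits at most `s` cells. -/
def DoneIn (D : RTM) (x : List Bool) (r : Bool) (s : ℕ) : Prop :=
  ∀ ω : ℕ → Bool, (∀ T, 2 ^ s ≤ T → D.verdict (D.run x ω T).state = some r) ∧
    ∀ t i, ((D.run x ω t).work i).cells ≤ s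

theorem DoneIn.mono {D : RTM} {x : List Bool} {r : Bool} {s s' : ℕ} (h : DoneIn D x r s)
    (hs : s ≤ s') : DoneIn D x r s' := fun ω =>
  ⟨fun T hT => (h ω).1 T ((Nat.pow_le_pow_right (by norm_num) hs).trans hT),
    fun t i => ((h ω).2 t i).trans hs⟩

theorem DoneIn.halts {D : RTM} {x : List Bool} {r : Bool} {s : ℕ} (h : DoneIn D x r s) :
    HaltsIn D x r s := fun ω => ⟨⟨2 ^ s, (h ω).1 _ le_rfl⟩, (h ω).2⟩

/-- The shell, with the least resources. -/
theorem shell' {F g : Fn 1} (hF : LF F) (hg : LF g) : ∃ (D : RTM) (e : ℕ), D.Deterministic ∧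
    ∀ (x : List Bool) (N : ℕ), g x (fun _ => N) ≠ 0 → (∀ m, g x (fun _ => m) ≠ 0 → N ≤ m) →
      DoneIn D x (decide (F x (fun _ => N) ≠ 0)) (e * Nat.log 2 (x.length + N + 2) + e) := by
  obtain ⟨D, e, hD, h⟩ := TS.pad_machine hF hg
  refine ⟨D, e, hD, fun x N h1 h2 ω => ?_⟩
  obtain ⟨h3, h4⟩ := h x N (fun m hm => by
    by_contra h5
    have := h2 m h5
    omega) h1 ω
  refine ⟨fun T hT => h3 T (le_trans ?_ hT), h4⟩
  have h5 : x.length + N + 2 < 2 ^ (Nat.log 2 (x.length + N + 2) + 1) :=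
    Nat.lt_pow_succ_log_self (by norm_num) _
  calc (x.length + N + 2) ^ e ≤ (2 ^ (Nat.log 2 (x.length + N + 2) + 1)) ^ e :=
        Nat.pow_le_pow_left h5.le e
    _ = 2 ^ (e * Nat.log 2 (x.length + N + 2) + e) := by
        rw [← pow_mul]; congr 1; ring

/-- Keep the first eight parameters. -/
def cut (par : ℕ → ℕ) : ℕ → ℕ := fun i => if i < 8 then par i else 0

theorem usim_cut (sy : ℕ → ℕ) (n N : ℕ) (par : ℕ → ℕ) :
    usim sy n (cut par) N = usim sy n par N := rfl

/-- `usim` uses only the first eight parameters. -/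
theorem usim_congr {sy : ℕ → ℕ} {n N : ℕ} {par par' : ℕ → ℕ} (h : ∀ i < 8, par i = par' i) :
    usim sy n par N = usim sy n par' N := by
  rw [← usim_cut sy n N par, ← usim_cut sy n N par']
  congr 1
  funext i
  unfold cut
  split_ifs with hi
  · exact h i hi
  · rfl

theorem ind_ne_zero {q : Prop} : ind q ≠ 0 ↔ q := by
  by_cases h : q
  · simp [h, ind_true]
  · simp [h, ind_false]

/-- The queries for the input `x`. -/
def Qs (M : RTM) (c : ℕ) (x : List Bool) : Set (List Bool) :=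
  {y | ∃ t ≤ sT c x, ∃ u < cV M c x, ∃ j < cK M c x,
    y = qw (cK M c x) (cC M c x) (cS M c x) (cK M c x) t u j}

theorem Qs_len (hV : WordSpec) {M : RTM} {c : ℕ} {x y : List Bool} (hy : y ∈ Qs M c x) :
    y.length = wlen (cK M c x) := by
  obtain ⟨t, _, u, _, j, _, rfl⟩ := hy
  exact hV.1 _ _

theorem wlen_pb (M : RTM) (c : ℕ) : ∃ d : ℕ, ∀ x : List Bool,
    wlen (cK M c x) ≤ (x.length + 2) ^ d := by
  obtain ⟨d, hd⟩ := (lf_wlen (k := 0) (B := fun x _ => cK M c x) (lfx_cK M c)).pb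
  refine ⟨d, fun x => ?_⟩
  have := hd x (fun i => Fin.elim0 i)
  simpa [mu] using this

theorem log_le_of_pow {n m d : ℕ} (h : m ≤ (n + 2) ^ d) :
    Nat.log 2 (n + m + 2) ≤ (2 * d + 4) * Nat.log 2 (n + 2) := by
  set L := Nat.log 2 (n + 2) with hL
  have h1 : 1 ≤ L := Nat.log_pos (by norm_num) (by omega)
  have h2 : n + 2 < 2 ^ (L + 1) := Nat.lt_pow_succ_log_self (by norm_num) _
  have h3 : (n + 2) ^ d ≤ 2 ^ ((L + 1) * d) := by
    rw [pow_mul]; exact Nat.pow_le_pow_left h2.le d
  have h4 : n + m + 2 ≤ 2 ^ (L + 1 + (L + 1) * d + 1) := by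
    have g1 : 1 ≤ 2 ^ (L + 1) := Nat.one_le_two_pow
    have g2 : 1 ≤ 2 ^ ((L + 1) * d) := Nat.one_le_two_pow
    have g3 := add_le_mul g1 g2
    have g4 : 2 ^ (L + 1 + (L + 1) * d + 1) = 2 * (2 ^ (L + 1) * 2 ^ ((L + 1) * d)) := by
      rw [pow_succ, pow_add]; ring
    omega
  have h5 := Nat.log_mono_right (b := 2) h4
  rw [Nat.log_pow (by norm_num)] at h5
  refine h5.trans ?_
  nlinarith

/-- THE MACHINE. -/
theorem core (hV : WordSpec) (hU1 : UsimSpec) (hU2 : UsimLF) (hS : ChkSound)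
    (hC : ChkComplete) (hL : ChkLF) {R : RTM} {c0 : ℕ} (hR : WalkOk R c0) {M : RTM} {c : ℕ}
    (hM : M.Bounded (fun n => (n + 2) ^ c) (fun n => c * Nat.log 2 (n + 2)))
    {D4 : RTM} (hD4 : D4.Deterministic)
    (h4 : ∀ x, ∃ (r : Bool) (s : ℕ), HaltsIn D4 x r s ∧
      (2 / 3 ≤ M.probAt x true ((x.length + 2) ^ c) 0 M.init → r = true) ∧
      (M.probAt x true ((x.length + 2) ^ c) 0 M.init ≤ 1 / 3 → r = false)) :
    ∃ (D : RTM) (A : Set (List Bool)), D.Deterministic ∧
      (∀ x, (2 / 3 ≤ M.probAt x true ((x.length + 2) ^ c) 0 M.init → x ∈ A) ∧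
        (M.probAt x true ((x.length + 2) ^ c) 0 M.init ≤ 1 / 3 → x ∉ A)) ∧
      (∀ x, ∃ (r : Bool) (s : ℕ), (r = true ↔ x ∈ A) ∧ DoneIn D x r s) ∧
      (∃ e : ℕ, ∀ x r s, HaltsIn D4 x r s → ∃ r' : Bool, (r' = true ↔ x ∈ A) ∧
        DoneIn D x r' (e * (s + Nat.log 2 (x.length + 2)))) ∧
      (∀ D' : RTM, D'.Deterministic → ∃ e : ℕ, ∀ x s,
        (∀ y ∈ Qs M c x, SolvesOn D' R c0 y s) → ∃ r' : Bool, (r' = true ↔ x ∈ A) ∧
          DoneIn D x r' (e * (s + Nat.log 2 (x.length + 2)))) := by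
  classical
  obtain ⟨par4, e4, hs4⟩ := hU1 D4 hD4
  have hsim4 : SimOk D4 par4 e4 := hs4
  -- the tests
  have hsy : LF (fun x b => syc (inSym x (b 0)) : Fn 2) := hV.2.2.2 2 _ (LF.proj 0)
  obtain ⟨hpg, -⟩ := lfp_pg hU2 (k := 1) (sy := fun x b => syc (inSym x (b 0)))
    (n := fun x _ => x.length) (N := fun _ a => a 0) par4 e4 hsy LF.len (LF.proj 0) 0
  obtain ⟨-, hpf⟩ := lfp_pg hU2 (k := 1) (sy := fun x b => syc (inSym x (b 0)))
    (n := fun x _ => x.length) (N := fun _ a => a 0) par4 e4 hsy LF.len (LF.proj 0) 2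
  obtain ⟨hcg, hcf⟩ := lfp_ck M c hV hU2 hL
  set G : List Bool → (Fin 1 → ℕ) → Prop := fun x a =>
    Pg (fun p => syc (inSym x p)) x.length par4 e4 (a 0) ∨
      ¬ ∀ idx < (a 0 + 1) ^ 8, ¬ Ck M c x (a 0) idx with hG
  set H : List Bool → (Fin 1 → ℕ) → Prop := fun x a =>
    Pf (fun p => syc (inSym x p)) x.length par4 e4 (a 0) ∨
      ¬ ∀ idx < (a 0 + 1) ^ 8, ¬ (Ck M c x (a 0) idx ∧
        cK M c x ≤ 2 * est (qa M c x (a 0) idx) (cK M c x) (sT c x) 0) with hH
  have hG' : LF (fun x a => ind (G x a) : Fn 1) := by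
    refine LFP.congr (hpg.or hcg) (fun x a => ?_)
    exact Iff.rfl
  have hH' : LF (fun x a => ind (H x a) : Fn 1) := by
    refine LFP.congr (hpf.or hcf) (fun x a => ?_)
    exact Iff.rfl
  obtain ⟨D, e, hD, hsh⟩ := shell' hH' hG'
  have hiG : ∀ x N, ind (G x (fun _ => N)) ≠ 0 ↔ G x (fun _ => N) := fun x N => ind_ne_zero
  -- existence of resources
  have hex : ∀ x, ∃ N, G x (fun _ => N) := by
    intro x
    obtain ⟨r, s, h5, -⟩ := h4 x
    exact ⟨bN e4 x.length s, Or.inl (pg_full hsim4 h5)⟩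
  let N1 : List Bool → ℕ := fun x => Nat.find (hex x)
  have hN1 : ∀ x, G x (fun _ => N1 x) := fun x => Nat.find_spec (hex x)
  have hN1' : ∀ x m, G x (fun _ => m) → N1 x ≤ m := fun x m hm => Nat.find_min' (hex x) hm
  have hdone : ∀ x, DoneIn D x (decide (H x (fun _ => N1 x)))
      (e * Nat.log 2 (x.length + N1 x + 2) + e) := by
    intro x
    have h5 := hsh x (N1 x) ((hiG x _).2 (hN1 x)) (fun m hm => hN1' x m ((hiG x m).1 hm))
    have e5 : (ind (H x (fun _ => N1 x)) ≠ 0) = H x (fun _ => N1 x) :=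
      propext ind_ne_zero
    simpa only [e5] using h5
  -- the bound by given resources
  have hbd : ∃ C : ℕ, ∀ (x : List Bool) (N B : ℕ), G x (fun _ => N) →
      Nat.log 2 (x.length + N + 2) ≤ B →
      DoneIn D x (decide (H x (fun _ => N1 x))) (C * B + C) := by
    refine ⟨e, fun x N B hN hB => (hdone x).mono ?_⟩
    have h5 := hN1' x N hN
    have h6 : Nat.log 2 (x.length + N1 x + 2) ≤ Nat.log 2 (x.length + N + 2) :=
      Nat.log_mono_right (by omega)
    exact Nat.add_le_add_right (Nat.mul_le_mul_left e (h6.trans hB)) e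
  -- soundness of the check
  have hK : ∀ x, (0 : ℚ) < cK M c x := fun x => by exact_mod_cast cK_pos x
  have hest : ∀ x N idx, Ck M c x N idx →
      |(est (qa M c x N idx) (cK M c x) (sT c x) 0 : ℚ) -
        cK M c x * M.probAt x true ((x.length + 2) ^ c) 0 M.init| ≤ cK M c x / 12 := by
    intro x N idx h
    rw [← hit_eq_prob hM x]
    exact hS _ _ _ _ _ _ h (cC_closed hM x le_rfl) (cS_lt hM x) le_rfl 0
      (by have := cV_pos (M := M) (c := c) x; omega)
  have hL1 : ∀ n : ℕ, 1 ≤ Nat.log 2 (n + 2) := fun n =>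
    Nat.log_pos (by norm_num) (by omega)
  refine ⟨D, {x | H x (fun _ => N1 x)}, hD, fun x => ⟨fun hp => ?_, fun hp => ?_⟩,
    fun x => ⟨_, _, by simp, hdone x⟩, ?_, ?_⟩
  · -- acceptance
    show H x (fun _ => N1 x)
    rcases hN1 x with h5 | h5
    · obtain ⟨r, s, h6, h7, -⟩ := h4 x
      exact Or.inl (pg_sound hsim4 h6 h5 (h7 hp))
    · push Not at h5
      obtain ⟨idx, hidx, hck⟩ := h5
      refine Or.inr (fun h => h idx hidx ⟨hck, ?_⟩)
      have h6 := abs_le.1 (hest x _ idx hck)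
      have h7 := hK x
      have h8 : (cK M c x : ℚ) * (2 / 3) ≤
          cK M c x * M.probAt x true ((x.length + 2) ^ c) 0 M.init :=
        mul_le_mul_of_nonneg_left hp h7.le
      have h9 : (cK M c x : ℚ) ≤ 2 * est (qa M c x (N1 x) idx) (cK M c x) (sT c x) 0 := by
        linarith [h6.1]
      exact_mod_cast h9
  · -- rejection
    intro h5
    change H x (fun _ => N1 x) at h5
    rcases h5 with h5 | h5
    · obtain ⟨r, s, h6, -, h7⟩ := h4 x
      have := pf_sound hsim4 h6 h5
      rw [h7 hp] at this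
      exact absurd this (by simp)
    · push Not at h5
      obtain ⟨idx, hidx, hck, hle⟩ := h5
      have h6 := abs_le.1 (hest x _ idx hck)
      have h7 := hK x
      have h8 : (cK M c x : ℚ) * M.probAt x true ((x.length + 2) ^ c) 0 M.init ≤
          cK M c x * (1 / 3) := mul_le_mul_of_nonneg_left hp h7.le
      have h9 : (cK M c x : ℚ) ≤ 2 * est (qa M c x (N1 x) idx) (cK M c x) (sT c x) 0 := by
        exact_mod_cast hle
      linarith [h6.2]
  · -- the bound by the fallback
    obtain ⟨C, hC1⟩ := hbd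
    obtain ⟨C2, hC2⟩ := budget e4
    refine ⟨C * (4 * C2 + C2) + C, fun x r s hx =>
      ⟨decide (H x (fun _ => N1 x)), by simp, ?_⟩⟩
    have h5 := hC1 x (bN e4 x.length s) (C2 * (s + Nat.log 2 (x.length + x.length + 2)) + C2)
      (Or.inl (pg_full hsim4 hx)) (hC2 x.length x.length s)
    refine h5.mono ?_
    have h6 : Nat.log 2 (x.length + x.length + 2) ≤ Nat.log 2 (x.length + 2) + 1 := by
      have h7 : x.length + x.length + 2 ≤ (x.length + 2) * 2 := by omega
      have h8 := Nat.log_mono_right (b := 2) h7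
      rwa [Nat.log_mul_base (by norm_num) (by omega)] at h8
    have h7 := hL1 x.length
    generalize Nat.log 2 (x.length + 2) = L at h6 h7 ⊢
    generalize Nat.log 2 (x.length + x.length + 2) = L' at h6 ⊢
    have h8 : C2 * (s + L') + C2 ≤ (4 * C2 + C2) * (s + L) := by nlinarith
    have h9 : C * (C2 * (s + L') + C2) ≤ C * ((4 * C2 + C2) * (s + L)) :=
      Nat.mul_le_mul_left _ h8
    nlinarith
  · -- optimality
    intro D' hD'
    obtain ⟨par, e', hs'⟩ := hU1 D' hD'
    have hsim : SimOk D' par e' := hs'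
    obtain ⟨C, hC1⟩ := hbd
    obtain ⟨C2, hC2⟩ := budget e'
    obtain ⟨d, hd⟩ := wlen_pb M c
    refine ⟨C * (C2 * (2 * d + 4) + C2) + C, fun x s hq =>
      ⟨decide (H x (fun _ => N1 x)), by simp, ?_⟩⟩
    set l := wlen (cK M c x) with hl
    set N0 := bN e' l s with hN0
    set W := bW e' l s with hW
    obtain ⟨g1, g2, g3⟩ := bN_ge e' l s
    have hGx : G x (fun _ => N0) := by
      refine Or.inr (fun h => h (pidx N0 (wpar par W)) (pidx_lt _ _) ?_)
      have hans : ∀ t ≤ sT c x, ∀ u < cV M c x, ∀ j < cK M c x,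
          (((j : ℚ) + 1) / cK M c x ≤ hit (toB (cC M c x)) u t (cS M c x) →
            qa M c x N0 (pidx N0 (wpar par W)) t u j = 2) ∧
          (hit (toB (cC M c x)) u t (cS M c x) ≤ (j : ℚ) / cK M c x →
            qa M c x N0 (pidx N0 (wpar par W)) t u j = 1) := by
        intro t ht u hu j hj
        have hmem : qw (cK M c x) (cC M c x) (cS M c x) (cK M c x) t u j ∈ Qs M c x :=
          ⟨t, ht, u, hu, j, hj, rfl⟩
        obtain ⟨r, hr1, hr2, hr3⟩ := hq _ hmem
        have hlen := Qs_len hV hmem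
        have hVK := cV_le_cK (M := M) (c := c) x
        have hTK := sT_le_cK (M := M) (c := c) x
        have hwalk := hR (cK M c x) (cC M c x) (cS M c x) (cK M c x) t u j
          (cC_closed hM x hVK) ((cS_lt hM x).trans_le hVK) (ht.trans hTK) (hu.trans_le hVK) hj
          le_rfl
        have hqa : qa M c x N0 (pidx N0 (wpar par W)) t u j = cd r := by
          have h5 := usim_full hsim hr1
          rw [hlen] at h5
          have e5 : (fun p => syc (inSym (qw (cK M c x) (cC M c x) (cS M c x) (cK M c x) t u j)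
              p)) = vsy (cK M c x) (rows (cC M c x) (cS M c x) (cK M c x) t u j) := by
            funext p
            exact hV.2.1 _ _ _
          rw [e5] at h5
          rw [← h5]
          unfold qa
          refine usim_congr (fun i hi => ?_)
          unfold ipar
          rw [if_pos hi]
          unfold pidx
          have hmin : ∀ i, min (wpar par W i) N0 = wpar par W i := by
            intro i
            refine min_eq_left ?_
            unfold wpar
            split_ifs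
            · exact g2
            · exact (hsim.1 i).trans g1
          rw [digit_sum (by omega) (fun i => min (wpar par W i) N0) (fun i => by
            have := min_le_right (wpar par W i) N0; omega) 8 i hi]
          exact hmin i
        rw [hqa]
        refine ⟨fun h => ?_, fun h => ?_⟩
        · rw [hr2 (hwalk.1 h)]; rfl
        · rw [hr3 (hwalk.2 h)]; rfl
      exact hC _ _ _ _ _ _ (cC_closed hM x le_rfl) (cS_lt hM x) (cK_pos x) hans
    have h5 := hC1 x N0 (C2 * (s + Nat.log 2 (x.length + l + 2)) + C2) hGx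
      (hC2 x.length l s)
    refine h5.mono ?_
    have h6 := log_le_of_pow (hd x)
    have h7 := hL1 x.length
    rw [← hl] at h6
    generalize Nat.log 2 (x.length + 2) = L at h6 h7 ⊢
    generalize Nat.log 2 (x.length + l + 2) = L' at h6 ⊢
    have h8 : C2 * (s + L') + C2 ≤ (C2 * (2 * d + 4) + C2) * (s + L) := by
      have h9 : C2 * L' ≤ C2 * ((2 * d + 4) * L) := Nat.mul_le_mul_left _ h6
      have h10 : C2 * s ≤ C2 * (2 * d + 4) * s := by nlinarith [Nat.zero_le (C2 * d * s), Nat.zero_le (C2 * s)]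
      nlinarith
    have h9 := Nat.mul_le_mul_left C h8
    nlinarith
end Vale.Agent.P313.UD
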