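import Vale.Agent.P313.H463.UD.Adv

/-!
Universal derandomization: the machine for a given randomized machine, its correctness and its
optimality on every input, also against machines with advice.
-/

namespace Vale.Agent.P313.UD

open Finset Sel

/-- `D`, given `w` as input, halts within `s` cells with a right answer to the promise problem of
the randomized machine `R` (with exponent `c` for its running time) on the input `y`. -/
def SolvesFor (D R : RTM) (c : ℕ) (y w : List Bool) (s : ℕ) : Prop :=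
  ∃ r : Bool, HaltsIn D w r s ∧
    (2 / 3 ≤ R.probAt y true ((y.length + 2) ^ c) 0 R.init → r = true) ∧
    (R.probAt y true ((y.length + 2) ^ c) 0 R.init ≤ 1 / 3 → r = false)

/-- Digits of an index. -/
def dgi (N idx i : ℕ) : ℕ := idx / (N + 1) ^ i % (N + 1)

section machine

variable (M : RTM) (c : ℕ)

/-- The answer to a query by machine `idx` with resources `N`. -/
noncomputable def qa2 (x : List Bool) (N idx t u j : ℕ) : ℕ :=
  usim (xsy (dgi N idx 9) (dgi N idx 8)
      (vsy (cK M c x) (rows (cC M c x) (cS M c x) (cK M c x) t u j)))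
    (xlen (dgi N idx 9) (wlen (cK M c x))) (ipar N idx) N

/-- The check of machine `idx`. -/
def Ck2 (x : List Bool) (N idx : ℕ) : Prop :=
  Chk (qa2 M c x N idx) (cC M c x) (cV M c x) (cS M c x) (sT c x) (cK M c x)

theorem lf_dgi {k : ℕ} {N idx : Fn k} (hN : LF N) (hi : LF idx) (i : ℕ) :
    LF (fun x a => dgi (N x a) (idx x a) i) :=
  (hi.div (hN.succ.powConst i)).mod hN.succ

theorem lf_qa2 (hV : WordSpec) (hU : UsimLF) {k : ℕ} {N idx t u j : Fn k} (hN : LF N)
    (hi : LF idx) (ht : LF t) (hu : LF u) (hj : LF j) :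
    LF (fun x a => qa2 M c x (N x a) (idx x a) (t x a) (u x a) (j x a)) := by
  have h0 : LF (fun x b => vsy (cK M c x)
      (rows (cC M c x) (cS M c x) (cK M c x) (t x (Fin.tail (Fin.tail b)))
        (u x (Fin.tail (Fin.tail b))) (j x (Fin.tail (Fin.tail b)))) (b 0) : Fn (k + 2)) :=
    lf_qsy M c hV ht.weak.weak hu.weak.weak hj.weak.weak (LF.proj 0)
  have h2 := lf_xsy (k := k + 1) (l := fun x b => dgi (N x (Fin.tail b)) (idx x (Fin.tail b)) 9)
    (a := fun x b => dgi (N x (Fin.tail b)) (idx x (Fin.tail b)) 8) (p := fun _ b => b 0)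
    (lf_dgi hN.weak hi.weak 9) (lf_dgi hN.weak hi.weak 8) (LF.proj 0) h0
  have h1 := hU k _ (fun x a => xlen (dgi (N x a) (idx x a) 9) (wlen (cK M c x))) N
    (fun i x a => ipar (N x a) (idx x a) i) h2
    (lf_xlen (lf_dgi hN hi 9) (lf_wlen ((lfx_cK M c).lf k))) hN (fun i => lf_ipar hN hi i)
  refine h1.congr (fun x a => ?_)
  simp only [Fin.tail_cons, Fin.cons_zero]
  rfl

/-- The two tests: some machine passes; some machine passes and says yes. -/
theorem lfp_ck2 (hV : WordSpec) (hU : UsimLF) (hL : ChkLF) :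
    LFP (fun x a => ¬ ∀ idx < (a 0 + 1) ^ 10, ¬ Ck2 M c x (a 0) idx :
      List Bool → (Fin 1 → ℕ) → Prop) ∧
    LFP (fun x a => ¬ ∀ idx < (a 0 + 1) ^ 10, ¬ (Ck2 M c x (a 0) idx ∧
      cK M c x ≤ 2 * est (qa2 M c x (a 0) idx) (cK M c x) (sT c x) 0) :
      List Bool → (Fin 1 → ℕ) → Prop) := by
  -- variables: `b 0 = idx`, `b 1 = N`
  have hq : LF (fun x b => qa2 M c x (b 4) (b 3) (b 2) (b 1) (b 0) : Fn 5) :=
    lf_qa2 M c hV hU (LF.proj 4) (LF.proj 3) (LF.proj 2) (LF.proj 1) (LF.proj 0)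
  have hc : LF (fun x b => cC M c x (b 1) (b 0) : Fn 4) := lf_cC M c (LF.proj 1) (LF.proj 0)
  obtain ⟨h1, h2⟩ := hL 2 (fun x b => qa2 M c x (b 4) (b 3) (b 2) (b 1) (b 0))
    (fun x b => cC M c x (b 1) (b 0)) (fun x _ => cV M c x) (fun x _ => cS M c x)
    (fun x _ => sT c x) (fun x _ => cK M c x) hq hc ((lfx_cV M c).lf 2) ((lfx_cS M c).lf 2)
    ((lfx_T (c := c)).lf 2) ((lfx_cK M c).lf 2)
  have e1 : ∀ (x : List Bool) (a : Fin 2 → ℕ),
      (fun t u j => qa2 M c x ((Fin.cons j (Fin.cons u (Fin.cons t a)) : Fin 5 → ℕ) 4)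
        ((Fin.cons j (Fin.cons u (Fin.cons t a)) : Fin 5 → ℕ) 3)
        ((Fin.cons j (Fin.cons u (Fin.cons t a)) : Fin 5 → ℕ) 2)
        ((Fin.cons j (Fin.cons u (Fin.cons t a)) : Fin 5 → ℕ) 1)
        ((Fin.cons j (Fin.cons u (Fin.cons t a)) : Fin 5 → ℕ) 0)) = qa2 M c x (a 1) (a 0) :=
    fun x a => rfl
  have e2 : ∀ (x : List Bool) (a : Fin 2 → ℕ),
      (fun v b => cC M c x ((Fin.cons b (Fin.cons v a) : Fin 4 → ℕ) 1)
        ((Fin.cons b (Fin.cons v a) : Fin 4 → ℕ) 0)) = cC M c x := fun x a => rfl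
  have h3 : LFP (fun x b => Ck2 M c x (b 1) (b 0) : List Bool → (Fin 2 → ℕ) → Prop) := by
    refine h1.congr (fun x a => ?_)
    rw [e1, e2]
    rfl
  have h4 : LF (fun x b => est (qa2 M c x (b 1) (b 0)) (cK M c x) (sT c x) 0 : Fn 2) := by
    refine h2.congr (fun x a => ?_)
    rw [e1]
  have h5 : LFP (fun x b => cK M c x ≤ 2 * est (qa2 M c x (b 1) (b 0)) (cK M c x) (sT c x) 0 :
      List Bool → (Fin 2 → ℕ) → Prop) :=
    LFP.le ((lfx_cK M c).lf 2) ((LF.const 2).mul h4)
  have hn : LF (fun _ a => (a 0 + 1) ^ 10 : Fn 1) := (LF.proj 0).succ.powConst 10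
  refine ⟨((LFP.all (k := 1) h3.not hn).not).congr (fun x a => ?_),
    ((LFP.all (k := 1) (h3.and h5).not hn).not).congr (fun x a => ?_)⟩
  · exact Iff.rfl
  · exact Iff.rfl

end machine

/-- Digits of the index of a machine with advice. -/
def adp (par : ℕ → ℕ) (l a i : ℕ) : ℕ := if i = 8 then a else if i = 9 then l else par i

/-- The index. -/
def pidx2 (N : ℕ) (p : ℕ → ℕ) : ℕ := ∑ i ∈ range 10, min (p i) N * (N + 1) ^ i

theorem pidx2_lt (N : ℕ) (p : ℕ → ℕ) : pidx2 N p < (N + 1) ^ 10 :=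
  sum_lt_pow (fun i => min (p i) N) (fun i => by
    have := min_le_right (p i) N; omega) 10

theorem dgi_pidx2 {N : ℕ} {p : ℕ → ℕ} {i : ℕ} (hi : i < 10) (h : p i ≤ N) :
    dgi N (pidx2 N p) i = p i := by
  unfold dgi pidx2
  rw [digit_sum (by omega) (fun i => min (p i) N) (fun i => by
    have := min_le_right (p i) N; omega) 10 i hi]
  exact min_eq_left h

theorem SimOk.mono {D : RTM} {par : ℕ → ℕ} {e e' : ℕ} (h : SimOk D par e) (he : e ≤ e') :
    SimOk D par e' := by
  refine ⟨fun i => (h.1 i).trans he, fun y ω t0 r hr W N hN => ?_⟩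
  obtain ⟨h1, h2⟩ := h.2 y ω t0 r hr W N (he.trans hN)
  refine ⟨h1, fun s hs hW hWN => h2 s hs ?_ ?_⟩
  · have := Nat.pow_le_pow_left he (s + 1)
    omega
  · rcases Nat.eq_zero_or_pos W with hW0 | hW0
    · omega
    · exact (Nat.pow_le_pow_right hW0 he).trans hWN

/-- Simulation with more than enough resources. -/
theorem usim_full' {D : RTM} {par : ℕ → ℕ} {e : ℕ} (hS : SimOk D par e) {y : List Bool}
    {r : Bool} {s l : ℕ} (hy : HaltsIn D y r s) (hl : y.length ≤ l) :
    usim (fun p => syc (inSym y p)) y.length (wpar par (bW e l s)) (bN e l s) = cd r := by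
  obtain ⟨g1, g2, g3⟩ := bN_ge e l s
  obtain ⟨t0, h4⟩ := (hy (fun _ => false)).1
  refine (hS.2 y _ t0 r h4 _ _ g1).2 s (hy (fun _ => false)).2 ?_ g3
  unfold bW
  omega

theorem log_adv {n w s : ℕ} :
    Nat.log 2 (n + (w + (2 * s + 1)) + 2) ≤ Nat.log 2 (n + w + 2) + (s + 1) := by
  have h1 : 2 * s + 2 ≤ 2 ^ (s + 1) := by
    induction s with
    | zero => norm_num
    | succ s ih => rw [pow_succ]; omega
  have h2 : n + (w + (2 * s + 1)) + 2 ≤ (n + w + 2) * 2 ^ (s + 1) := by
    have := Nat.mul_le_mul_left (n + w + 2) h1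
    nlinarith
  have h3 := Nat.log_mono_right (b := 2) h2
  have h4 : n + w + 2 < 2 ^ (Nat.log 2 (n + w + 2) + 1) :=
    Nat.lt_pow_succ_log_self (by norm_num) _
  have h5 : (n + w + 2) * 2 ^ (s + 1) < 2 ^ (Nat.log 2 (n + w + 2) + (s + 1) + 1) := by
    have : 2 ^ (Nat.log 2 (n + w + 2) + (s + 1) + 1) =
        2 ^ (Nat.log 2 (n + w + 2) + 1) * 2 ^ (s + 1) := by
      rw [← pow_add]; congr 1; ring
    rw [this]
    exact Nat.mul_lt_mul_of_pos_right h4 (by positivity)
  have h6 := Nat.log_lt_of_lt_pow (by positivity) h5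
  omega

/-- THE MACHINE. -/
theorem core2 (hV : WordSpec) (hU1 : UsimSpec) (hU2 : UsimLF) (hS : ChkSound)
    (hC : ChkComplete) (hL : ChkLF) {R : RTM} {c0 : ℕ} (hR : WalkOk R c0) {M : RTM} {c : ℕ}
    (hM : M.Bounded (fun n => (n + 2) ^ c) (fun n => c * Nat.log 2 (n + 2)))
    {D4 : RTM} (hD4 : D4.Deterministic)
    (h4 : ∀ x, ∃ (r : Bool) (s : ℕ), HaltsIn D4 x r s ∧
      (2 / 3 ≤ M.probAt x true ((x.length + 2) ^ c) 0 M.init → r = true) ∧
      (M.probAt x true ((x.length + 2) ^ c) 0 M.init ≤ 1 / 3 → r = false)) :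
    ∃ (D : RTM) (A : Set (List Bool)), D.Deterministic ∧
      (∀ x, (2 / 3 ≤ M.probAt x true ((x.length + 2) ^ c) 0 M.init → x ∈ A) ∧
        (M.probAt x true ((x.length + 2) ^ c) 0 M.init ≤ 1 / 3 → x ∉ A)) ∧
      (∃ e : ℕ, ∀ x r s, HaltsIn D4 x r s → ∃ r' : Bool, (r' = true ↔ x ∈ A) ∧
        DoneIn D x r' (e * (s + Nat.log 2 (x.length + 2)))) ∧
      (∀ D' : RTM, D'.Deterministic → ∃ e : ℕ, ∀ x s l a, l ≤ s + 1 → a < 2 ^ s →
        (∀ y ∈ Qs M c x, SolvesFor D' R c0 y (xw l a y) s) → ∃ r' : Bool,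
          (r' = true ↔ x ∈ A) ∧ DoneIn D x r' (e * (s + Nat.log 2 (x.length + 2)))) := by
  classical
  obtain ⟨par4, e4, hs4⟩ := hU1 D4 hD4
  have hsim4 : SimOk D4 par4 e4 := hs4
  -- the tests
  have hsy : LF (fun x b => syc (inSym x (b 0)) : Fn 2) := hV.2.2.2 2 _ (LF.proj 0)
  obtain ⟨hpg, -⟩ := lfp_pg hU2 (k := 1) (sy := fun x b => syc (inSym x (b 0)))
    (n := fun x _ => x.length) (N := fun _ a => a 0) par4 e4 hsy LF.len (LF.proj 0) 0
  obtain ⟨-, hpf⟩ := lfp_pg hU2 (k := 1) (sy := fun x b => syc (inSym x (b 0)))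
    (n := fun x _ => x.length) (N := fun _ a => a 0) par4 e4 hsy LF.len (LF.proj 0) 2
  obtain ⟨hcg, hcf⟩ := lfp_ck2 M c hV hU2 hL
  set G : List Bool → (Fin 1 → ℕ) → Prop := fun x a =>
    Pg (fun p => syc (inSym x p)) x.length par4 e4 (a 0) ∨
      ¬ ∀ idx < (a 0 + 1) ^ 10, ¬ Ck2 M c x (a 0) idx with hG
  set H : List Bool → (Fin 1 → ℕ) → Prop := fun x a =>
    Pf (fun p => syc (inSym x p)) x.length par4 e4 (a 0) ∨
      ¬ ∀ idx < (a 0 + 1) ^ 10, ¬ (Ck2 M c x (a 0) idx ∧
        cK M c x ≤ 2 * est (qa2 M c x (a 0) idx) (cK M c x) (sT c x) 0) with hH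
  have hG' : LF (fun x a => ind (G x a) : Fn 1) := by
    refine LFP.congr (hpg.or hcg) (fun x a => ?_)
    exact Iff.rfl
  have hH' : LF (fun x a => ind (H x a) : Fn 1) := by
    refine LFP.congr (hpf.or hcf) (fun x a => ?_)
    exact Iff.rfl
  obtain ⟨D, e, hD, hsh⟩ := shell' hH' hG'
  have hiG : ∀ x N, ind (G x (fun _ => N)) ≠ 0 ↔ G x (fun _ => N) := fun x N => ind_ne_zero
  -- existence of resources
  have hex : ∀ x, ∃ N, G x (fun _ => N) := by
    intro x
    obtain ⟨r, s, h5, -⟩ := h4 x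
    exact ⟨bN e4 x.length s, Or.inl (pg_full hsim4 h5)⟩
  let N1 : List Bool → ℕ := fun x => Nat.find (hex x)
  have hN1 : ∀ x, G x (fun _ => N1 x) := fun x => Nat.find_spec (hex x)
  have hN1' : ∀ x m, G x (fun _ => m) → N1 x ≤ m := fun x m hm => Nat.find_min' (hex x) hm
  have hdone : ∀ x, DoneIn D x (decide (H x (fun _ => N1 x)))
      (e * Nat.log 2 (x.length + N1 x + 2) + e) := by
    intro x
    have h5 := hsh x (N1 x) ((hiG x _).2 (hN1 x)) (fun m hm => hN1' x m ((hiG x m).1 hm))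
    have e5 : (ind (H x (fun _ => N1 x)) ≠ 0) = H x (fun _ => N1 x) :=
      propext ind_ne_zero
    simpa only [e5] using h5
  -- the bound by given resources
  have hbd : ∃ C : ℕ, ∀ (x : List Bool) (N B : ℕ), G x (fun _ => N) →
      Nat.log 2 (x.length + N + 2) ≤ B →
      DoneIn D x (decide (H x (fun _ => N1 x))) (C * B + C) := by
    refine ⟨e, fun x N B hN hB => (hdone x).mono ?_⟩
    have h5 := hN1' x N hN
    have h6 : Nat.log 2 (x.length + N1 x + 2) ≤ Nat.log 2 (x.length + N + 2) :=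
      Nat.log_mono_right (by omega)
    exact Nat.add_le_add_right (Nat.mul_le_mul_left e (h6.trans hB)) e
  -- soundness of the check
  have hK : ∀ x, (0 : ℚ) < cK M c x := fun x => by exact_mod_cast cK_pos x
  have hest : ∀ x N idx, Ck2 M c x N idx →
      |(est (qa2 M c x N idx) (cK M c x) (sT c x) 0 : ℚ) -
        cK M c x * M.probAt x true ((x.length + 2) ^ c) 0 M.init| ≤ cK M c x / 12 := by
    intro x N idx h
    rw [← hit_eq_prob hM x]
    exact hS _ _ _ _ _ _ h (cC_closed hM x le_rfl) (cS_lt hM x) le_rfl 0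
      (by have := cV_pos (M := M) (c := c) x; omega)
  have hL1 : ∀ n : ℕ, 1 ≤ Nat.log 2 (n + 2) := fun n =>
    Nat.log_pos (by norm_num) (by omega)
  refine ⟨D, {x | H x (fun _ => N1 x)}, hD, fun x => ⟨fun hp => ?_, fun hp => ?_⟩, ?_, ?_⟩
  · -- acceptance
    show H x (fun _ => N1 x)
    rcases hN1 x with h5 | h5
    · obtain ⟨r, s, h6, h7, -⟩ := h4 x
      exact Or.inl (pg_sound hsim4 h6 h5 (h7 hp))
    · push Not at h5
      obtain ⟨idx, hidx, hck⟩ := h5
      refine Or.inr (fun h => h idx hidx ⟨hck, ?_⟩)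
      have h6 := abs_le.1 (hest x _ idx hck)
      have h7 := hK x
      have h8 : (cK M c x : ℚ) * (2 / 3) ≤
          cK M c x * M.probAt x true ((x.length + 2) ^ c) 0 M.init :=
        mul_le_mul_of_nonneg_left hp h7.le
      have h9 : (cK M c x : ℚ) ≤ 2 * est (qa2 M c x (N1 x) idx) (cK M c x) (sT c x) 0 := by
        linarith [h6.1]
      exact_mod_cast h9
  · -- rejection
    intro h5
    change H x (fun _ => N1 x) at h5
    rcases h5 with h5 | h5
    · obtain ⟨r, s, h6, -, h7⟩ := h4 x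
      have := pf_sound hsim4 h6 h5
      rw [h7 hp] at this
      exact absurd this (by simp)
    · push Not at h5
      obtain ⟨idx, hidx, hck, hle⟩ := h5
      have h6 := abs_le.1 (hest x _ idx hck)
      have h7 := hK x
      have h8 : (cK M c x : ℚ) * M.probAt x true ((x.length + 2) ^ c) 0 M.init ≤
          cK M c x * (1 / 3) := mul_le_mul_of_nonneg_left hp h7.le
      have h9 : (cK M c x : ℚ) ≤ 2 * est (qa2 M c x (N1 x) idx) (cK M c x) (sT c x) 0 := by
        exact_mod_cast hle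
      linarith [h6.2]
  · -- the bound by the fallback
    obtain ⟨C, hC1⟩ := hbd
    obtain ⟨C2, hC2⟩ := budget e4
    refine ⟨C * (4 * C2 + C2) + C, fun x r s hx =>
      ⟨decide (H x (fun _ => N1 x)), by simp, ?_⟩⟩
    have h5 := hC1 x (bN e4 x.length s) (C2 * (s + Nat.log 2 (x.length + x.length + 2)) + C2)
      (Or.inl (pg_full hsim4 hx)) (hC2 x.length x.length s)
    refine h5.mono ?_
    have h6 : Nat.log 2 (x.length + x.length + 2) ≤ Nat.log 2 (x.length + 2) + 1 := by
      have h7 : x.length + x.length + 2 ≤ (x.length + 2) * 2 := by omega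
      have h8 := Nat.log_mono_right (b := 2) h7
      rwa [Nat.log_mul_base (by norm_num) (by omega)] at h8
    have h7 := hL1 x.length
    generalize Nat.log 2 (x.length + 2) = L at h6 h7 ⊢
    generalize Nat.log 2 (x.length + x.length + 2) = L' at h6 ⊢
    have h8 : C2 * (s + L') + C2 ≤ (4 * C2 + C2) * (s + L) := by nlinarith
    have h9 : C * (C2 * (s + L') + C2) ≤ C * ((4 * C2 + C2) * (s + L)) :=
      Nat.mul_le_mul_left _ h8
    nlinarith
  · -- optimality
    intro D' hD'
    obtain ⟨par, e', hs'⟩ := hU1 D' hD'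
    have hsim : SimOk D' par (e' + 2) := SimOk.mono (e := e') hs' (by omega)
    obtain ⟨C, hC1⟩ := hbd
    obtain ⟨C2, hC2⟩ := budget (e' + 2)
    obtain ⟨d, hd⟩ := wlen_pb M c
    refine ⟨C * (C2 * (2 * d + 4) + 3 * C2) + C, fun x s l a hls has hq =>
      ⟨decide (H x (fun _ => N1 x)), by simp, ?_⟩⟩
    set w := wlen (cK M c x) with hw
    set N0 := bN (e' + 2) (w + (2 * s + 1)) s with hN0
    set W := bW (e' + 2) (w + (2 * s + 1)) s with hW
    obtain ⟨g1, g2, g3⟩ := bN_ge (e' + 2) (w + (2 * s + 1)) s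
    have hpow : 2 ^ (s + 1) ≤ N0 := by
      have g4 : 2 ^ (s + 1) ≤ (e' + 2) ^ (s + 1) := Nat.pow_le_pow_left (by omega) _
      have g5 : (e' + 2) ^ (s + 1) ≤ W := by rw [hW]; unfold bW; omega
      omega
    have haN : a ≤ N0 := by
      have : 2 ^ s ≤ 2 ^ (s + 1) := Nat.pow_le_pow_right (by norm_num) (by omega)
      omega
    have hlN : l ≤ N0 := by
      have : s + 1 < 2 ^ (s + 1) := Nat.lt_two_pow_self
      omega
    set p := adp (wpar par W) l a with hp
    have hpN : ∀ i, p i ≤ N0 := by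
      intro i
      rw [hp]
      unfold adp wpar
      split_ifs
      · exact haN
      · exact hlN
      · exact g2
      · exact (hsim.1 i).trans g1
    have hGx : G x (fun _ => N0) := by
      refine Or.inr (fun h => h (pidx2 N0 p) (pidx2_lt _ _) ?_)
      have hd8 : dgi N0 (pidx2 N0 p) 8 = a := by
        rw [dgi_pidx2 (by norm_num) (hpN 8), hp]; rfl
      have hd9 : dgi N0 (pidx2 N0 p) 9 = l := by
        rw [dgi_pidx2 (by norm_num) (hpN 9), hp]; rfl
      have hans : ∀ t ≤ sT c x, ∀ u < cV M c x, ∀ j < cK M c x,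
          (((j : ℚ) + 1) / cK M c x ≤ hit (toB (cC M c x)) u t (cS M c x) →
            qa2 M c x N0 (pidx2 N0 p) t u j = 2) ∧
          (hit (toB (cC M c x)) u t (cS M c x) ≤ (j : ℚ) / cK M c x →
            qa2 M c x N0 (pidx2 N0 p) t u j = 1) := by
        intro t ht u hu j hj
        set y := qw (cK M c x) (cC M c x) (cS M c x) (cK M c x) t u j with hy
        have hmem : y ∈ Qs M c x := ⟨t, ht, u, hu, j, hj, rfl⟩
        obtain ⟨r, hr1, hr2, hr3⟩ := hq _ hmem
        have hlen := Qs_len hV hmem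
        have hVK := cV_le_cK (M := M) (c := c) x
        have hTK := sT_le_cK (M := M) (c := c) x
        have hwalk := hR (cK M c x) (cC M c x) (cS M c x) (cK M c x) t u j
          (cC_closed hM x hVK) ((cS_lt hM x).trans_le hVK) (ht.trans hTK) (hu.trans_le hVK) hj
          le_rfl
        rw [← hy] at hwalk
        have hqa : qa2 M c x N0 (pidx2 N0 p) t u j = cd r := by
          have hxl : (xw l a y).length ≤ w + (2 * s + 1) := by
            rw [xlen_eq, hlen, ← hw]
            unfold xlen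
            split_ifs <;> omega
          have h5 := usim_full' hsim hr1 hxl
          have e5 : (fun p => syc (inSym (xw l a y) p)) = xsy l a (vsy (cK M c x)
              (rows (cC M c x) (cS M c x) (cK M c x) t u j)) := by
            funext q
            rw [xsy_eq]
            congr 1
            funext q
            exact hV.2.1 _ _ _
          rw [e5, xlen_eq, hlen] at h5
          rw [← h5]
          unfold qa2
          rw [hd8, hd9]
          refine usim_congr (fun i hi => ?_)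
          unfold ipar
          rw [if_pos hi]
          have := dgi_pidx2 (N := N0) (p := p) (i := i) (by omega) (hpN i)
          unfold dgi at this
          rw [this, hp]
          unfold adp
          rw [if_neg (by omega), if_neg (by omega)]
        rw [hqa]
        refine ⟨fun h => ?_, fun h => ?_⟩
        · rw [hr2 (hwalk.1 h)]; rfl
        · rw [hr3 (hwalk.2 h)]; rfl
      exact hC _ _ _ _ _ _ (cC_closed hM x le_rfl) (cS_lt hM x) (cK_pos x) hans
    have h5 := hC1 x N0 _ hGx (hC2 x.length (w + (2 * s + 1)) s)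
    refine h5.mono ?_
    have h6 := log_le_of_pow (hd x)
    have h6' := log_adv (n := x.length) (w := w) (s := s)
    have h7 := hL1 x.length
    rw [← hw] at h6
    generalize Nat.log 2 (x.length + 2) = L at h6 h7 ⊢
    generalize Nat.log 2 (x.length + w + 2) = L' at h6 h6'
    generalize Nat.log 2 (x.length + (w + (2 * s + 1)) + 2) = L'' at h6' ⊢
    have h8 : C2 * (s + L'') + C2 ≤ (C2 * (2 * d + 4) + 3 * C2) * (s + L) := by
      have h9 : C2 * L'' ≤ C2 * ((2 * d + 4) * L + (s + 1)) :=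
        Nat.mul_le_mul_left _ (by omega)
      nlinarith [Nat.zero_le (C2 * d * s), Nat.zero_le (C2 * s), Nat.mul_le_mul_left C2 h7]
    have h9 := Nat.mul_le_mul_left C h8
    nlinarith

end Vale.Agent.P313.UD
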