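import Vale.Agent.P313.H296.Chain
import Vale.Agent.P313.H296.E4
import Vale.Agent.P313.H296.LFx

/-!
Universal derandomization: definitions and the statements of the modules.
-/

namespace Vale.Agent.P313.UD

open Finset

/-- A successor function with the coin given as a number, as a function of a Boolean coin. -/
def toB (cs : ℕ → ℕ → ℕ) : ℕ → Bool → ℕ := fun v b => cs v b.toNat

/-! ### Words which describe a chain explicitly -/

/-- The length of a word with parameter `B`: `B` ones, a zero, `5 + 2 B` rows of length `B`. -/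
def wlen (B : ℕ) : ℕ := B + 1 + (5 + 2 * B) * B

/-- Bit number `p` of the word: row `r` holds `val r` in unary. -/
def wbit (B : ℕ) (val : ℕ → ℕ) (p : ℕ) : Bool :=
  decide (p < B ∨ (B + 1 ≤ p ∧ (p - (B + 1)) % B < val ((p - (B + 1)) / B)))

/-- The word. -/
def word (B : ℕ) (val : ℕ → ℕ) : List Bool := (List.range (wlen B)).map (wbit B val)

/-- The rows of a query: the chain `cs` on `{0, ..., B-1}`, its start `s0`, the denominator `K`,
and the question whether the probability to be in `u` after `t` coins is at least `(k+1)/K` or at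
most `k/K`. -/
def rows (cs : ℕ → ℕ → ℕ) (s0 K t u k r : ℕ) : ℕ :=
  if r = 0 then s0 else if r = 1 then t else if r = 2 then u else if r = 3 then k
  else if r = 4 then K else cs ((r - 5) / 2) ((r - 5) % 2)

/-- The query word. -/
def qw (B : ℕ) (cs : ℕ → ℕ → ℕ) (s0 K t u k : ℕ) : List Bool := word B (rows cs s0 K t u k)

/-- Codes of input symbols. -/
def syc : InSym → ℕ
  | InSym.lmark => 0
  | InSym.rmark => 1
  | InSym.bit false => 2
  | InSym.bit true => 3

/-- The code of the symbol in cell `p` of the input tape holding `word B val`. -/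
def vsy (B : ℕ) (val : ℕ → ℕ) (p : ℕ) : ℕ :=
  if p = 0 then 0 else if p - 1 < wlen B then (if wbit B val (p - 1) = true then 3 else 2) else 1

/-! ### Module V: the words -/

/-- MODULE V. -/
def WordSpec : Prop :=
  (∀ B val, (word B val).length = wlen B) ∧
  (∀ B val p, syc (inSym (word B val) p) = vsy B val p) ∧
  (∀ (k : ℕ) (B p : Fn k) (val : Fn (k + 1)), LF B → LF p → LF val →
    LF (fun x a => vsy (B x a) (fun r => val x (Fin.cons r a)) (p x a))) ∧
  (∀ (k : ℕ) (f : Fn k), LF f → LF (fun x a => syc (inSym x (f x a))))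

/-! ### Module B: randomized machines from chains in `LF` -/

/-- The probability that the chain is accepted within `r` coins: in `v` the chain continues if
`fi v = 0`, accepts if `fi v = 2` and rejects otherwise. -/
def chP (nx : ℕ → ℕ → ℕ) (fi : ℕ → ℕ) : ℕ → ℕ → ℚ
  | 0, v => if fi v = 2 then 1 else 0
  | r + 1, v =>
    if fi v = 0 then (chP nx fi r (nx v 0) + chP nx fi r (nx v 1)) / 2
    else if fi v = 2 then 1 else 0

/-- MODULE B: a chain given by functions in `LF` is simulated by a randomized machine. -/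
def CoinCompile : Prop :=
  ∀ (ini : List Bool → ℕ) (nx : List Bool → ℕ → ℕ → ℕ) (fi : List Bool → ℕ → ℕ)
    (Inv : List Bool → ℕ → Prop) (rk : List Bool → ℕ → ℕ) (d : ℕ),
    LF (fun x _ => ini x : Fn 0) → LF (fun x a => nx x (a 0) (a 1) : Fn 2) →
    LF (fun x a => fi x (a 0) : Fn 1) →
    (∀ x v, Inv x v → v ≤ (x.length + 2) ^ d) →
    (∀ x, Inv x (ini x)) → (∀ x, rk x (ini x) ≤ (x.length + 2) ^ d) →
    (∀ x v, Inv x v → fi x v = 0 → ∀ b < 2, Inv x (nx x v b) ∧ rk x (nx x v b) < rk x v) →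
    ∃ (R : RTM) (c : ℕ),
      R.Bounded (fun n => (n + 2) ^ c) (fun n => c * Nat.log 2 (n + 2)) ∧
      ∀ x : List Bool, R.probAt x true ((x.length + 2) ^ c) 0 R.init =
        chP (nx x) (fi x) ((x.length + 2) ^ d) (ini x)

/-! ### Module W: the randomized machine which solves the queries -/

/-- MODULE W (may assume `CoinCompile` and `WordSpec`). -/
def WalkMachine : Prop :=
  ∃ (R : RTM) (c : ℕ),
    R.Bounded (fun n => (n + 2) ^ c) (fun n => c * Nat.log 2 (n + 2)) ∧
    ∀ (B : ℕ) (cs : ℕ → ℕ → ℕ) (s0 K t u k : ℕ), (∀ v < B, ∀ b < 2, cs v b < B) → s0 < B →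
      t ≤ B → u < B → k < K → K ≤ B →
      (((k : ℚ) + 1) / K ≤ hit (toB cs) u t s0 →
        2 / 3 ≤ R.probAt (qw B cs s0 K t u k) true (((qw B cs s0 K t u k).length + 2) ^ c) 0
          R.init) ∧
      (hit (toB cs) u t s0 ≤ (k : ℚ) / K →
        R.probAt (qw B cs s0 K t u k) true (((qw B cs s0 K t u k).length + 2) ^ c) 0
          R.init ≤ 1 / 3)

/-! ### Module U: universal simulation of deterministic machines -/

/-- Digit `j` in radix `W`. -/
def dgt (W v j : ℕ) : ℕ := v / W ^ j % W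

/- The parameters of a machine: `par 0` number of tapes, `par 1` radix of the tapes, `par 2`
number of states, `par 3` code of the start state, `par 4` table of the verdicts (digits in radix
`3`: `0` continue, `1` reject, `2` accept), `par 5` table of the transitions (digits in radix
`par 6`), `par 7` radix of the codes of configurations. -/

/-- The number of the key seen in the configuration with code `v`. -/
def ukey (sy : ℕ → ℕ) (par : ℕ → ℕ) (N v : ℕ) : ℕ :=
  dgt (par 7) v 0 + par 2 * (sy (dgt (par 7) v 1) + 4 *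
    ∑ i ∈ range (par 0), dgt (par 7) v (2 + par 0 + i) * min (par 1 ^ i) (N + 1))

/-- Entry `c` of the transition table for the key `κ`: `c = 0` new state, `c = 1` move of the
input head, `c = 2 + 2 i` symbol written on tape `i`, `c = 3 + 2 i` move on tape `i`
(moves: `0` left, `1` stay, `2` right). -/
def utab (par : ℕ → ℕ) (κ c : ℕ) : ℕ := par 5 / par 6 ^ (κ * (2 + 2 * par 0) + c) % par 6

/-- The digits of the next configuration. -/
def und (n : ℕ) (par : ℕ → ℕ) (κ v j : ℕ) : ℕ :=
  if j = 0 then utab par κ 0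
  else if j = 1 then
    dsel (utab par κ 1) (dgt (par 7) v 1 - 1) (dgt (par 7) v 1) (min (dgt (par 7) v 1 + 1) (n + 1))
  else if j - 2 < par 0 then
    dsel (utab par κ (3 + 2 * (j - 2))) (dgt (par 7) v j / par 1) (dgt (par 7) v j)
      (utab par κ (2 + 2 * (j - 2)) + par 1 * dgt (par 7) v j)
  else if j - 2 - par 0 < par 0 then
    dsel (utab par κ (3 + 2 * (j - 2 - par 0))) (dgt (par 7) v (j - par 0) % par 1)
      (utab par κ (2 + 2 * (j - 2 - par 0))) (dgt (par 7) v (j + par 0) % par 1)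
  else if j - 2 - par 0 - par 0 < par 0 then
    dsel (utab par κ (3 + 2 * (j - 2 - par 0 - par 0)))
      (utab par κ (2 + 2 * (j - 2 - par 0 - par 0)) + par 1 * dgt (par 7) v j)
      (dgt (par 7) v j) (dgt (par 7) v j / par 1)
  else 0

/-- The verdict of the configuration with code `v`. -/
def uver (par : ℕ → ℕ) (v : ℕ) : ℕ := par 4 / 3 ^ dgt (par 7) v 0 % 3

/-- Number of digits. -/
def und' (par : ℕ → ℕ) : ℕ := 2 + 3 * par 0

/-- One step; `N + 1` is the code of a failure. -/
def ustep (sy : ℕ → ℕ) (n : ℕ) (par : ℕ → ℕ) (N v : ℕ) : ℕ :=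
  if v ≤ N ∧ uver par v ≠ 0 then v
  else if v ≤ N ∧ ∀ j < und' par, und n par (ukey sy par N v) v j < par 7 then
    ∑ j ∈ range (und' par), und n par (ukey sy par N v) v j * min (par 7 ^ j) (N + 1)
  else N + 1

/-- Simulation with resources `N`: `0` no result, `1` reject, `2` accept. -/
def usim (sy : ℕ → ℕ) (n : ℕ) (par : ℕ → ℕ) (N : ℕ) : ℕ :=
  if par 7 ^ und' par ≤ N ∧ par 3 < par 7 ∧ (ustep sy n par N)^[N + 1] (par 3) ≤ N then
    uver par ((ustep sy n par N)^[N + 1] (par 3))
  else 0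

/-- Code of a verdict. -/
def cd (r : Bool) : ℕ := if r = true then 2 else 1

/-- Set the radix of the codes of configurations. -/
def wpar (par : ℕ → ℕ) (W i : ℕ) : ℕ := if i = 7 then W else par i

/-- MODULE U1: every deterministic machine is simulated (soundly for all `W` and `N ≥ e`, with the
result as soon as `W` and `N` are large enough). -/
def UsimSpec : Prop :=
  ∀ D : RTM, D.Deterministic → ∃ (par : ℕ → ℕ) (e : ℕ), (∀ i, par i ≤ e) ∧
    ∀ (y : List Bool) (ω : ℕ → Bool) (t0 : ℕ) (r : Bool),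
      D.verdict (D.run y ω t0).state = some r → ∀ W N, e ≤ N →
      (usim (fun p => syc (inSym y p)) y.length (wpar par W) N = 0 ∨
        usim (fun p => syc (inSym y p)) y.length (wpar par W) N = cd r) ∧
      ∀ s, (∀ t i, ((D.run y ω t).work i).cells ≤ s) → y.length + 2 + e ^ (s + 1) ≤ W →
        W ^ e ≤ N → usim (fun p => syc (inSym y p)) y.length (wpar par W) N = cd r

/-- MODULE U2: the universal simulation is in `LF`. -/
def UsimLF : Prop :=
  ∀ (k : ℕ) (sy : Fn (k + 1)) (n N : Fn k) (par : ℕ → Fn k), LF sy → LF n → LF N →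
    (∀ i, LF (par i)) →
    LF (fun x a => usim (fun p => sy x (Fin.cons p a)) (n x a) (fun i => par i x a) (N x a))

/-! ### Module C: the check -/

/-- The estimate for `K` times the probability to be in `u` after `t` coins. -/
def est (q : ℕ → ℕ → ℕ → ℕ) (K t u : ℕ) : ℕ := ∑ k ∈ range K, if q t u k = 2 then 1 else 0

/-- What flows into `u` from the estimates at time `t`. -/
def infl (q : ℕ → ℕ → ℕ → ℕ) (cs : ℕ → ℕ → ℕ) (V K t u : ℕ) : ℕ :=
  ∑ w ∈ range V, ((if cs w 0 = u then est q K t w else 0) +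
    (if cs w 1 = u then est q K t w else 0))

/-- The check of the answers `q t u k`. -/
def Chk (q : ℕ → ℕ → ℕ → ℕ) (cs : ℕ → ℕ → ℕ) (V s0 T K : ℕ) : Prop :=
  (∀ u < V, est q K 0 u ≤ (if u = s0 then K else 0) + 1 ∧
    (if u = s0 then K else 0) ≤ est q K 0 u + 1) ∧
  ∀ t < T, ∀ u < V, 2 * est q K (t + 1) u ≤ infl q cs V K t u + (2 * V + 2) ∧
    infl q cs V K t u ≤ 2 * est q K (t + 1) u + (2 * V + 2)

/-- MODULE C1: soundness of the check. -/
def ChkSound : Prop :=
  ∀ (q : ℕ → ℕ → ℕ → ℕ) (cs : ℕ → ℕ → ℕ) (V s0 T K : ℕ), Chk q cs V s0 T K →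
    (∀ v < V, ∀ b < 2, cs v b < V) → s0 < V → 12 * (T + 1) * (V + 1) ^ 2 ≤ K →
    ∀ u < V, |(est q K T u : ℚ) - K * hit (toB cs) u T s0| ≤ K / 12

/-- MODULE C2: right answers pass the check. -/
def ChkComplete : Prop :=
  ∀ (q : ℕ → ℕ → ℕ → ℕ) (cs : ℕ → ℕ → ℕ) (V s0 T K : ℕ),
    (∀ v < V, ∀ b < 2, cs v b < V) → s0 < V → 0 < K →
    (∀ t ≤ T, ∀ u < V, ∀ k < K,
      (((k : ℚ) + 1) / K ≤ hit (toB cs) u t s0 → q t u k = 2) ∧
      (hit (toB cs) u t s0 ≤ (k : ℚ) / K → q t u k = 1)) →
    Chk q cs V s0 T K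

/-- MODULE C3: the check is in `LF`. -/
def ChkLF : Prop :=
  ∀ (k : ℕ) (q : Fn (k + 3)) (cs : Fn (k + 2)) (V s0 T K : Fn k), LF q → LF cs → LF V →
    LF s0 → LF T → LF K →
    LFP (fun x a => Chk (fun t u j => q x (Fin.cons j (Fin.cons u (Fin.cons t a))))
      (fun v b => cs x (Fin.cons b (Fin.cons v a))) (V x a) (s0 x a) (T x a) (K x a)) ∧
    LF (fun x a => est (fun t u j => q x (Fin.cons j (Fin.cons u (Fin.cons t a)))) (K x a)
      (T x a) 0)

end Vale.Agent.P313.UD
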