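import Vale.Agent.P313.H463.UD.Fin2
import Vale.Agent.P313.H427L.Fin4

/-!
Universal derandomization: the fallback.
-/

namespace Vale.Agent.P313.UD

theorem fallback_ge (n : ℕ) : Real.logb 2 (n + 2) ≤ Real.logb 2 (n + 2) ^ ((4 : ℝ) / 3) *
    Real.logb 2 (Real.logb 2 (n + 2) + 1) ^ ((2 : ℝ) / 3) := by
  have h1 := one_le_logb n
  have h2 : (1 : ℝ) ≤ Real.logb 2 (Real.logb 2 (n + 2) + 1) := by
    rw [Real.le_logb_iff_rpow_le (by norm_num) (by linarith)]
    simp only [Real.rpow_one]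
    linarith
  have h3 : (1 : ℝ) ≤ Real.logb 2 (Real.logb 2 (n + 2) + 1) ^ ((2 : ℝ) / 3) :=
    Real.one_le_rpow h2 (by norm_num)
  calc Real.logb 2 ((n : ℝ) + 2) = Real.logb 2 (n + 2) ^ (1 : ℝ) * 1 := by
        rw [Real.rpow_one, mul_one]
    _ ≤ _ := mul_le_mul (Real.rpow_le_rpow_of_exponent_le h1 (by norm_num)) h3 (by norm_num)
        (by positivity)

/-- The bound of `SpaceFourThirds`. -/
theorem fallback43 : Fallback (fun n => Real.logb 2 (n + 2) ^ ((4 : ℝ) / 3) *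
    Real.logb 2 (Real.logb 2 (n + 2) + 1) ^ ((2 : ℝ) / 3)) := by
  intro M c hM
  obtain ⟨A, D, e, hD, hA⟩ := ZL.all_coins 3 (a := 1) (b := 2) (by norm_num) hM
  have hgap : ∀ x : List Bool, (1 : ℚ) / (x.length + 2) ^ 3 ≤ 1 / 8 := by
    intro x
    apply one_div_le_one_div_of_le (by norm_num)
    have h1 : (2 : ℚ) ≤ (x.length : ℚ) + 2 := by
      have : (0 : ℚ) ≤ x.length := Nat.cast_nonneg _
      linarith
    calc (8 : ℚ) = 2 ^ 3 := by norm_num
      _ ≤ ((x.length : ℚ) + 2) ^ 3 := pow_le_pow_left₀ (by norm_num) h1 3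
  refine ⟨A, D, e, hD, fun x => ⟨fun h => (hA x).1 (le_trans ?_ h), fun h =>
    (hA x).2 (h.trans ?_)⟩⟩
  · have := hgap x
    push_cast
    linarith
  · have := hgap x
    push_cast
    linarith

end Vale.Agent.P313.UD
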