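import Vale.Agent.P313.H463.UD.Core

/-!
Universal derandomization: the final statements from the modules.
-/

namespace Vale.Agent.P313.UD

open Finset Sel

/-- Space bounds: at least logarithmic, nondecreasing, and of the same order on inputs which are
polynomially longer. -/
structure Nice (S : ℕ → ℝ) : Prop where
  mono : Monotone S
  log_le : ∀ n : ℕ, Real.logb 2 (n + 2) ≤ S n
  poly : ∀ k : ℕ, ∃ C : ℝ, ∀ n : ℕ, S ((n + 2) ^ k) ≤ C * S n

/-- Every promise problem in `BPL` is in deterministic space `O(S)`. -/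
def PromiseBPLIn (S : ℕ → ℝ) : Prop :=
  ∀ (M : RTM) (c : ℕ), M.Bounded (fun n => (n + 2) ^ c) (fun n => c * Nat.log 2 (n + 2)) →
    ∃ (D : RTM) (e : ℝ), D.Deterministic ∧ ∀ x : List Bool, ∃ r : Bool,
      (∀ ω : ℕ → Bool, (∃ t, D.verdict (D.run x ω t).state = some r) ∧
        ∀ t i, (((D.run x ω t).work i).cells : ℝ) ≤ e * S x.length) ∧
      (2 / 3 ≤ M.probAt x true ((x.length + 2) ^ c) 0 M.init → r = true) ∧
      (M.probAt x true ((x.length + 2) ^ c) 0 M.init ≤ 1 / 3 → r = false)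

theorem one_le_logb (n : ℕ) : (1 : ℝ) ≤ Real.logb 2 (n + 2) := by
  rw [Real.le_logb_iff_rpow_le (by norm_num) (by positivity)]
  have : (0 : ℝ) ≤ n := Nat.cast_nonneg n
  simp only [Real.rpow_one]
  linarith

theorem natlog_le_logb (n : ℕ) : (Nat.log 2 (n + 2) : ℝ) ≤ Real.logb 2 (n + 2) := by
  have := Real.natLog_le_logb (n + 2) 2
  push_cast at this
  exact this

theorem Nice.one_le {S : ℕ → ℝ} (h : Nice S) (n : ℕ) : 1 ≤ S n :=
  (one_le_logb n).trans (h.log_le n)

/-- Powers of the logarithm. -/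
theorem nice_log {a : ℝ} (ha : 1 ≤ a) : Nice (fun n => Real.logb 2 (n + 2) ^ a) := by
  refine ⟨fun m n hmn => ?_, fun n => ?_, fun k => ⟨((k : ℝ) + 2) ^ a, fun n => ?_⟩⟩
  · refine Real.rpow_le_rpow ((zero_le_one).trans (one_le_logb m)) ?_ (by linarith)
    refine Real.logb_le_logb_of_le (by norm_num) (by positivity) ?_
    have : (m : ℝ) ≤ n := by exact_mod_cast hmn
    linarith
  · calc Real.logb 2 ((n : ℝ) + 2) = Real.logb 2 (n + 2) ^ (1 : ℝ) := (Real.rpow_one _).symm
      _ ≤ _ := Real.rpow_le_rpow_of_exponent_le (one_le_logb n) ha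
  · have h1 := one_le_logb n
    have h2 : Real.logb 2 ((((n + 2) ^ k : ℕ) : ℝ) + 2) ≤ ((k : ℝ) + 2) * Real.logb 2 (n + 2) := by
      have h3 : ((((n + 2) ^ k : ℕ) : ℝ) + 2) ≤ ((n : ℝ) + 2) ^ (k + 2) := by
        have h4 : (n + 2) ^ k + 2 ≤ (n + 2) ^ (k + 2) := by
          have h5 : 1 ≤ (n + 2) ^ k := Nat.one_le_pow _ _ (by omega)
          have h6 : 4 ≤ (n + 2) ^ 2 := by nlinarith [Nat.zero_le n]
          rw [pow_add]
          have h7 := Nat.mul_le_mul_left ((n + 2) ^ k) h6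
          omega
        have : ((((n + 2) ^ k + 2 : ℕ)) : ℝ) ≤ (((n + 2) ^ (k + 2) : ℕ) : ℝ) := by
          exact_mod_cast h4
        push_cast at this ⊢
        exact this
      calc Real.logb 2 ((((n + 2) ^ k : ℕ) : ℝ) + 2) ≤ Real.logb 2 (((n : ℝ) + 2) ^ (k + 2)) :=
            Real.logb_le_logb_of_le (by norm_num) (by positivity) h3
        _ = ((k : ℝ) + 2) * Real.logb 2 (n + 2) := by
            rw [Real.logb_pow]; push_cast; ring
    calc Real.logb 2 ((((n + 2) ^ k : ℕ) : ℝ) + 2) ^ a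
        ≤ (((k : ℝ) + 2) * Real.logb 2 (n + 2)) ^ a := by
          refine Real.rpow_le_rpow ?_ h2 (by linarith)
          refine Real.logb_nonneg (by norm_num) ?_
          have : (0 : ℝ) ≤ (((n + 2) ^ k : ℕ) : ℝ) := Nat.cast_nonneg _
          linarith
      _ = ((k : ℝ) + 2) ^ a * Real.logb 2 (n + 2) ^ a :=
          Real.mul_rpow (by positivity) (by linarith)

/-- From one input to `Decides`. -/
theorem decides_of_done {D : RTM} (hD : D.Deterministic) {A : Set (List Bool)} {S : ℕ → ℝ}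
    (h : ∀ x : List Bool, ∃ (r : Bool) (s : ℕ), (r = true ↔ x ∈ A) ∧ DoneIn D x r s ∧
      (s : ℝ) ≤ S x.length) :
    D.Decides A (fun n => (2 : ℝ) ^ S n) S := by
  refine ⟨hD, fun x ω => ?_⟩
  obtain ⟨r, s, hr, hd, hs⟩ := h x
  refine ⟨fun t ht => ?_, fun t i => ?_⟩
  · have ht' : 2 ^ s ≤ t := by
      have h1 : ((2 ^ s : ℕ) : ℝ) ≤ (t : ℝ) := by
        refine le_trans ?_ ht
        push_cast
        rw [← Real.rpow_natCast]
        exact Real.rpow_le_rpow_of_exponent_le (by norm_num) hs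
      exact_mod_cast h1
    have h2 := (hd ω).1 t ht'
    refine ⟨fun hx => ?_, fun hx => ?_⟩
    · rw [h2, hr.2 hx]
    · have : r = false := by
        cases hrr : r
        · rfl
        · exact absurd (hr.1 hrr) hx
      rw [h2, this]
  · have := (hd ω).2 t i
    exact le_trans (by exact_mod_cast this) hs

/-- Simulation of a fixed machine on the query about acceptance. -/
theorem comp_machine (hV : WordSpec) (hU1 : UsimSpec) (hU2 : UsimLF) {U : RTM}
    (hU : U.Deterministic) (M : RTM) (c : ℕ) :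
    ∃ (D : RTM) (e : ℕ), D.Deterministic ∧ ∀ (x : List Bool) (r : Bool) (s : ℕ),
      HaltsIn U (qw (cK M c x) (cC M c x) (cS M c x) (cK M c x) (sT c x) 0 (cK M c x / 2)) r s →
      DoneIn D x r (e * (s + Nat.log 2 (x.length + 2))) := by
  classical
  obtain ⟨par, e4, hs4⟩ := hU1 U hU
  have hsim : SimOk U par e4 := hs4
  have hsy : LF (fun x b => vsy (cK M c x) (rows (cC M c x) (cS M c x) (cK M c x) (sT c x) 0
      (cK M c x / 2)) (b 0) : Fn 2) :=
    lf_qsy M c hV ((lfx_T (c := c)).lf 2) (LF.const 0)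
      (((lfx_cK M c).lf 2).div (LF.const 2)) (LF.proj 0)
  obtain ⟨hpg, -⟩ := lfp_pg hU2 (k := 1)
    (sy := fun x b => vsy (cK M c x) (rows (cC M c x) (cS M c x) (cK M c x) (sT c x) 0
      (cK M c x / 2)) (b 0))
    (n := fun x _ => wlen (cK M c x)) (N := fun _ a => a 0) par e4 hsy
    (lf_wlen ((lfx_cK M c).lf 1)) (LF.proj 0) 0
  obtain ⟨-, hpf⟩ := lfp_pg hU2 (k := 1)
    (sy := fun x b => vsy (cK M c x) (rows (cC M c x) (cS M c x) (cK M c x) (sT c x) 0
      (cK M c x / 2)) (b 0))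
    (n := fun x _ => wlen (cK M c x)) (N := fun _ a => a 0) par e4 hsy
    (lf_wlen ((lfx_cK M c).lf 1)) (LF.proj 0) 2
  obtain ⟨D, e, hD, hsh⟩ := shell' hpf hpg
  obtain ⟨C2, hC2⟩ := budget e4
  obtain ⟨d, hd⟩ := wlen_pb M c
  refine ⟨D, e * (C2 * (2 * d + 4) + C2) + e, hD, fun x r s hx => ?_⟩
  set y := qw (cK M c x) (cC M c x) (cS M c x) (cK M c x) (sT c x) 0 (cK M c x / 2) with hy
  have hlen : y.length = wlen (cK M c x) := hV.1 _ _
  have e5 : (fun p => syc (inSym y p)) = vsy (cK M c x) (rows (cC M c x) (cS M c x) (cK M c x)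
      (sT c x) 0 (cK M c x / 2)) := by
    funext p
    exact hV.2.1 _ _ _
  -- the tests on this input
  have eg : ∀ N, (ind (e4 ≤ N ∧ ¬ ∀ W < N + 1, usim (vsy (cK M c x) (rows (cC M c x) (cS M c x)
      (cK M c x) (sT c x) 0 (cK M c x / 2))) (wlen (cK M c x)) (wpar par W) N = 0) ≠ 0) ↔
      Pg (fun p => syc (inSym y p)) y.length par e4 N := by
    intro N
    rw [ind_ne_zero, e5, hlen]
    rfl
  have ef : ∀ N, (ind (e4 ≤ N ∧ ¬ ∀ W < N + 1, ¬ usim (vsy (cK M c x) (rows (cC M c x)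
      (cS M c x) (cK M c x) (sT c x) 0 (cK M c x / 2))) (wlen (cK M c x)) (wpar par W) N = 2)
      ≠ 0) ↔ Pf (fun p => syc (inSym y p)) y.length par e4 N := by
    intro N
    rw [ind_ne_zero, e5, hlen]
    rfl
  have hex : ∃ N, Pg (fun p => syc (inSym y p)) y.length par e4 N :=
    ⟨bN e4 y.length s, pg_full hsim hx⟩
  have h1 := hsh x (Nat.find hex) ((eg _).2 (Nat.find_spec hex))
    (fun m hm => Nat.find_min' hex ((eg m).1 hm))
  have h2 : decide (ind (e4 ≤ Nat.find hex ∧ ¬ ∀ W < Nat.find hex + 1, ¬ usim (vsy (cK M c x)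
      (rows (cC M c x) (cS M c x) (cK M c x) (sT c x) 0 (cK M c x / 2))) (wlen (cK M c x))
      (wpar par W) (Nat.find hex) = 2) ≠ 0) = r := by
    cases hr : r
    · rw [decide_eq_false_iff_not, ef]
      intro h
      have := pf_sound hsim hx h
      rw [hr] at this
      exact absurd this (by simp)
    · rw [decide_eq_true_eq, ef]
      exact pg_sound hsim hx (Nat.find_spec hex) hr
  have h3 : DoneIn D x r (e * Nat.log 2 (x.length + Nat.find hex + 2) + e) := by
    have h4 := h1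
    change DoneIn D x (decide (ind (e4 ≤ Nat.find hex ∧ ¬ ∀ W < Nat.find hex + 1,
      ¬ usim (vsy (cK M c x) (rows (cC M c x) (cS M c x) (cK M c x) (sT c x) 0 (cK M c x / 2)))
      (wlen (cK M c x)) (wpar par W) (Nat.find hex) = 2) ≠ 0)) _ at h4
    rwa [h2] at h4
  refine h3.mono ?_
  have h4 : Nat.find hex ≤ bN e4 (wlen (cK M c x)) s :=
    le_of_le_of_eq (Nat.find_min' hex (pg_full hsim hx)) (by rw [hlen])
  have h5 : Nat.log 2 (x.length + Nat.find hex + 2) ≤
      C2 * (s + Nat.log 2 (x.length + wlen (cK M c x) + 2)) + C2 :=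
    (Nat.log_mono_right (by omega)).trans (hC2 x.length (wlen (cK M c x)) s)
  have h6 := log_le_of_pow (hd x)
  have h7 : 1 ≤ Nat.log 2 (x.length + 2) := Nat.log_pos (by norm_num) (by omega)
  generalize Nat.log 2 (x.length + 2) = L at h6 h7 ⊢
  generalize Nat.log 2 (x.length + wlen (cK M c x) + 2) = L' at h5 h6
  generalize Nat.log 2 (x.length + Nat.find hex + 2) = L'' at h5 ⊢
  have h8 : C2 * (s + L') + C2 ≤ (C2 * (2 * d + 4) + C2) * (s + L) := by
    have h9 : C2 * L' ≤ C2 * ((2 * d + 4) * L) := Nat.mul_le_mul_left _ h6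
    have h10 : C2 * s ≤ C2 * (2 * d + 4) * s := by
      nlinarith [Nat.zero_le (C2 * d * s), Nat.zero_le (C2 * s)]
    nlinarith
  have h9 := Nat.mul_le_mul_left e (h5.trans h8)
  nlinarith

end Vale.Agent.P313.UD
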