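import Vale.Agent.P313.H463.UD.Fin

/-!
Universal derandomization: the final theorem from the modules, for a given bound of the
unconditional derandomization.
-/

namespace Vale.Agent.P313.UD

open Finset Sel

/-- The unconditional derandomization used as a fallback: every promise problem in `BPL` is
decided in time `2 ^ O(f)` and space `O(f)`. -/
def Fallback (f : ℕ → ℝ) : Prop :=
  ∀ (M : RTM) (c : ℕ), M.Bounded (fun n => (n + 2) ^ c) (fun n => c * Nat.log 2 (n + 2)) →
    ∃ (A : Set (List Bool)) (D : RTM) (e : ℝ),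
      D.Decides A (fun n => (2 : ℝ) ^ (e * f n)) (fun n => e * f n) ∧
      ∀ x : List Bool,
        (2 / 3 ≤ M.probAt x true ((x.length + 2) ^ c) 0 M.init → x ∈ A) ∧
        (M.probAt x true ((x.length + 2) ^ c) 0 M.init ≤ 1 / 3 → x ∉ A)

theorem halts_of_decides {D : RTM} {A : Set (List Bool)} {T S : ℕ → ℝ} (h : D.Decides A T S)
    (x : List Bool) : ∃ r : Bool, (r = true ↔ x ∈ A) ∧ HaltsIn D x r ⌊S x.length⌋₊ := by
  classical
  refine ⟨decide (x ∈ A), by simp, fun ω => ⟨⟨⌈T x.length⌉₊, ?_⟩, fun t i => ?_⟩⟩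
  · have h1 := (h.2 x ω).1 ⌈T x.length⌉₊ (Nat.le_ceil _)
    by_cases hx : x ∈ A
    · rw [h1.1 hx]; simp [hx]
    · rw [h1.2 hx]; simp [hx]
  · exact Nat.le_floor ((h.2 x ω).2 t i)

section

variable (hV : WordSpec) (hU1 : UsimSpec) (hU2 : UsimLF) (hS : ChkSound)
  (hC : ChkComplete) (hL : ChkLF) {R : RTM} {c0 : ℕ} (hR : WalkOk R c0)
  (hRb : R.Bounded (fun n => (n + 2) ^ c0) (fun n => c0 * Nat.log 2 (n + 2)))
  {f : ℕ → ℝ} (hf : ∀ n : ℕ, Real.logb 2 (n + 2) ≤ f n) (hfb : Fallback f)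

include hV hU1 hU2 hS hC hL hR hRb hf hfb

/-- The first part. -/
theorem part1 {M : RTM} {c : ℕ}
    (hM : M.Bounded (fun n => (n + 2) ^ c) (fun n => c * Nat.log 2 (n + 2))) :
    ∃ (D : RTM) (A : Set (List Bool)) (Q : List Bool → Set (List Bool)) (d : ℕ),
      (∃ e : ℝ, D.Decides A (fun n => (2 : ℝ) ^ (e * f n)) (fun n => e * f n)) ∧
      (∀ x : List Bool,
        (2 / 3 ≤ M.probAt x true ((x.length + 2) ^ c) 0 M.init → x ∈ A) ∧
        (M.probAt x true ((x.length + 2) ^ c) 0 M.init ≤ 1 / 3 → x ∉ A)) ∧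
      (∀ x, ∀ y ∈ Q x, y.length ≤ (x.length + 2) ^ d) ∧
      (∀ D' : RTM, D'.Deterministic → ∃ e : ℕ, ∀ (x : List Bool) (s : ℕ),
        (∀ y ∈ Q x, SolvesOn D' R c0 y s) → ∀ ω : ℕ → Bool,
          (∀ t, 2 ^ (e * (s + Nat.log 2 (x.length + 2))) ≤ t →
            (x ∈ A → D.verdict (D.run x ω t).state = some true) ∧
            (x ∉ A → D.verdict (D.run x ω t).state = some false)) ∧
          ∀ t i, ((D.run x ω t).work i).cells ≤ e * (s + Nat.log 2 (x.length + 2))) ∧
      (∀ S : ℕ → ℝ, Nice S → PromiseBPLIn S →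
        ∃ e : ℝ, D.Decides A (fun n => (2 : ℝ) ^ (e * S n)) (fun n => e * S n)) := by
  obtain ⟨A4, D4, e4, hd4, hp4⟩ := hfb M c hM
  obtain ⟨D, A, hD, hA, -, ⟨e1, he1⟩, hopt⟩ := core hV hU1 hU2 hS hC hL hR hM hd4.1
    (fun x => by
      obtain ⟨r, hr, hh⟩ := halts_of_decides hd4 x
      refine ⟨r, _, hh, fun h => hr.2 ((hp4 x).1 h), fun h => ?_⟩
      cases hrr : r
      · rfl
      · exact absurd (hr.1 hrr) ((hp4 x).2 h))
  obtain ⟨d, hd⟩ := wlen_pb M c
  refine ⟨D, A, Qs M c, d, ?_, hA, fun x y hy => (Qs_len hV hy).trans_le (hd x), ?_, ?_⟩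
  · -- the fallback bound
    refine ⟨e1 * (|e4| + 1), decides_of_done hD (fun x => ?_)⟩
    obtain ⟨r, -, hh⟩ := halts_of_decides hd4 x
    obtain ⟨r', hr', hdone⟩ := he1 x r _ hh
    refine ⟨r', _, hr', hdone, ?_⟩
    have h1 : (1 : ℝ) ≤ f x.length := (one_le_logb _).trans (hf _)
    have h2 : ((⌊e4 * f x.length⌋₊ : ℕ) : ℝ) ≤ |e4| * f x.length := by
      rcases le_total 0 (e4 * f x.length) with h | h
      · exact (Nat.floor_le h).trans (mul_le_mul_of_nonneg_right (le_abs_self _) (by linarith))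
      · rw [Nat.floor_of_nonpos h, Nat.cast_zero]; positivity
    have h3 := (natlog_le_logb x.length).trans (hf x.length)
    push_cast
    calc (e1 : ℝ) * (((⌊e4 * f x.length⌋₊ : ℕ) : ℝ) + (Nat.log 2 (x.length + 2) : ℝ))
        ≤ e1 * (|e4| * f x.length + f x.length) :=
          mul_le_mul_of_nonneg_left (add_le_add h2 h3) (Nat.cast_nonneg _)
      _ = e1 * (|e4| + 1) * f x.length := by ring
  · -- optimality
    intro D' hD'
    obtain ⟨e, he⟩ := hopt D' hD'
    refine ⟨e, fun x s hq ω => ?_⟩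
    obtain ⟨r', hr', hdone⟩ := he x s hq
    refine ⟨fun t ht => ?_, (hdone ω).2⟩
    have h2 := (hdone ω).1 t ht
    refine ⟨fun hx => ?_, fun hx => ?_⟩
    · rw [h2, hr'.2 hx]
    · have : r' = false := by
        cases hrr : r'
        · rfl
        · exact absurd (hr'.1 hrr) hx
      rw [h2, this]
  · -- conditional bounds
    intro S hSn hPS
    obtain ⟨D', e', hD', hsol⟩ := hPS R c0 hRb
    obtain ⟨e, he⟩ := hopt D' hD'
    obtain ⟨C, hCp⟩ := hSn.poly d
    have hCp' : ∀ n : ℕ, S ((n + 2) ^ d) ≤ |C| * S n := fun n => (hCp n).trans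
      (mul_le_mul_of_nonneg_right (le_abs_self _) (by linarith [hSn.one_le n]))
    refine ⟨e * (|e'| * |C| + 1), decides_of_done hD (fun x => ?_)⟩
    have h1 := hSn.one_le x.length
    have hb : 0 ≤ |e'| * |C| * S x.length := by positivity
    have hq : ∀ y ∈ Qs M c x, SolvesOn D' R c0 y ⌊|e'| * |C| * S x.length⌋₊ := by
      intro y hy
      obtain ⟨r, hr1, hr2, hr3⟩ := hsol y
      refine ⟨r, fun ω => ⟨(hr1 ω).1, fun t i => Nat.le_floor ?_⟩, hr2, hr3⟩
      have h2 := (hr1 ω).2 t i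
      have h3 : S y.length ≤ |C| * S x.length :=
        (hSn.mono ((Qs_len hV hy).trans_le (hd x))).trans (hCp' _)
      have h4 := hSn.one_le y.length
      calc (((D'.run y ω t).work i).cells : ℝ) ≤ e' * S y.length := h2
        _ ≤ |e'| * S y.length := mul_le_mul_of_nonneg_right (le_abs_self _) (by linarith)
        _ ≤ |e'| * (|C| * S x.length) := mul_le_mul_of_nonneg_left h3 (abs_nonneg _)
        _ = |e'| * |C| * S x.length := by ring
    obtain ⟨r', hr', hdone⟩ := he x _ hq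
    refine ⟨r', _, hr', hdone, ?_⟩
    have h2 := Nat.floor_le hb
    have h3 := (natlog_le_logb x.length).trans (hSn.log_le x.length)
    push_cast
    calc (e : ℝ) * (((⌊|e'| * |C| * S x.length⌋₊ : ℕ) : ℝ) + (Nat.log 2 (x.length + 2) : ℝ))
        ≤ e * (|e'| * |C| * S x.length + S x.length) :=
          mul_le_mul_of_nonneg_left (add_le_add h2 h3) (Nat.cast_nonneg _)
      _ = e * (|e'| * |C| + 1) * S x.length := by ring

/-- The second part: one machine decides about all space bounds. -/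
theorem part2 : ∃ (U : RTM) (B : Set (List Bool)) (e : ℝ),
    U.Decides B (fun n => (2 : ℝ) ^ (e * f n)) (fun n => e * f n) ∧
    (∀ x : List Bool,
      (2 / 3 ≤ R.probAt x true ((x.length + 2) ^ c0) 0 R.init → x ∈ B) ∧
      (R.probAt x true ((x.length + 2) ^ c0) 0 R.init ≤ 1 / 3 → x ∉ B)) ∧
    ∀ S : ℕ → ℝ, Nice S → (PromiseBPLIn S ↔ ∃ e : ℝ, ∀ (x : List Bool) (ω : ℕ → Bool)
      (t : ℕ) (i : Fin U.tapes), (((U.run x ω t).work i).cells : ℝ) ≤ e * S x.length) := by
  obtain ⟨U, B, Q, d, ⟨e, hUd⟩, hB, -, -, hcond⟩ :=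
    part1 hV hU1 hU2 hS hC hL hR hRb hf hfb hRb
  refine ⟨U, B, e, hUd, hB, fun S hSn => ⟨fun h => ?_, fun h => ?_⟩⟩
  · obtain ⟨e', he'⟩ := hcond S hSn h
    exact ⟨e', fun x ω t i => (he'.2 x ω).2 t i⟩
  · obtain ⟨e', he'⟩ := h
    intro M c hM
    obtain ⟨D, e1, hD, hsim⟩ := comp_machine hV hU1 hU2 hUd.1 M c
    obtain ⟨d', hd'⟩ := wlen_pb M c
    obtain ⟨C, hCp⟩ := hSn.poly d'
    have hCp' : ∀ n : ℕ, S ((n + 2) ^ d') ≤ |C| * S n := fun n => (hCp n).trans
      (mul_le_mul_of_nonneg_right (le_abs_self _) (by linarith [hSn.one_le n]))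
    refine ⟨D, e1 * (|e'| * |C| + 1), hD, fun x => ?_⟩
    set y := qw (cK M c x) (cC M c x) (cS M c x) (cK M c x) (sT c x) 0 (cK M c x / 2) with hy
    have hylen : y.length ≤ (x.length + 2) ^ d' := (hV.1 _ _).trans_le (hd' x)
    obtain ⟨r, hr, hh⟩ := halts_of_decides hUd y
    have h1 := hSn.one_le x.length
    have hb : 0 ≤ |e'| * |C| * S x.length := by positivity
    have hh' : HaltsIn U y r ⌊|e'| * |C| * S x.length⌋₊ := by
      intro ω
      refine ⟨(hh ω).1, fun t i => Nat.le_floor ?_⟩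
      have h3 : S y.length ≤ |C| * S x.length := (hSn.mono hylen).trans (hCp' _)
      have h4 := hSn.one_le y.length
      calc (((U.run y ω t).work i).cells : ℝ) ≤ e' * S y.length := he' y ω t i
        _ ≤ |e'| * S y.length := mul_le_mul_of_nonneg_right (le_abs_self _) (by linarith)
        _ ≤ |e'| * (|C| * S x.length) := mul_le_mul_of_nonneg_left h3 (abs_nonneg _)
        _ = |e'| * |C| * S x.length := by ring
    have hdone := hsim x r _ hh'
    have hVK := cV_le_cK (M := M) (c := c) x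
    have hTK := sT_le_cK (M := M) (c := c) x
    have hV3 := cV_pos (M := M) (c := c) x
    have hK12 : 12 ≤ cK M c x := by
      unfold cK
      have g1 : 1 ≤ (sT c x + 1) * (cV M c x + 1) ^ 2 := Nat.mul_pos (by omega) (by positivity)
      nlinarith
    have hwalk := hR (cK M c x) (cC M c x) (cS M c x) (cK M c x) (sT c x) 0 (cK M c x / 2)
      (cC_closed hM x hVK) ((cS_lt hM x).trans_le hVK) hTK (by omega) (by omega) le_rfl
    rw [hit_eq_prob hM x, ← hy] at hwalk
    have hKpos : (0 : ℚ) < cK M c x := by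
      have : 0 < cK M c x := by omega
      exact_mod_cast this
    refine ⟨r, fun ω => ⟨⟨_, (hdone ω).1 _ le_rfl⟩, fun t i => ?_⟩, fun hp => ?_, fun hp => ?_⟩
    · have h2 := Nat.floor_le hb
      have h3 := (natlog_le_logb x.length).trans (hSn.log_le x.length)
      have h5 := (hdone ω).2 t i
      have h6 : (((D.run x ω t).work i).cells : ℝ) ≤
          ((e1 * (⌊|e'| * |C| * S x.length⌋₊ + Nat.log 2 (x.length + 2)) : ℕ) : ℝ) := by
        exact_mod_cast h5
      refine h6.trans ?_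
      push_cast
      calc (e1 : ℝ) * (((⌊|e'| * |C| * S x.length⌋₊ : ℕ) : ℝ) + (Nat.log 2 (x.length + 2) : ℝ))
          ≤ e1 * (|e'| * |C| * S x.length + S x.length) :=
            mul_le_mul_of_nonneg_left (add_le_add h2 h3) (Nat.cast_nonneg _)
        _ = e1 * (|e'| * |C| + 1) * S x.length := by ring
    · -- acceptance
      refine hr.2 ((hB y).1 (hwalk.1 (le_trans ?_ hp)))
      rw [div_le_iff₀ hKpos]
      have g1 : 2 * (cK M c x / 2) ≤ cK M c x := Nat.mul_div_le _ _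
      have g2 : (2 : ℚ) * ((cK M c x / 2 : ℕ) : ℚ) ≤ cK M c x := by exact_mod_cast g1
      have g3 : (12 : ℚ) ≤ cK M c x := by exact_mod_cast hK12
      linarith
    · -- rejection
      have h7 : y ∉ B := by
        refine (hB y).2 (hwalk.2 (hp.trans ?_))
        rw [le_div_iff₀ hKpos]
        have g1 : cK M c x ≤ 2 * (cK M c x / 2) + 1 := by omega
        have g2 : (cK M c x : ℚ) ≤ 2 * ((cK M c x / 2 : ℕ) : ℚ) + 1 := by exact_mod_cast g1
        have g3 : (12 : ℚ) ≤ cK M c x := by exact_mod_cast hK12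
        linarith
      cases hrr : r
      · rfl
      · exact absurd (hr.1 hrr) h7

end

end Vale.Agent.P313.UD
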