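import Vale.Agent.P313.H463.UD.Fin3

/-!
Universal derandomization: the final theorem with the form of the queries.
-/

namespace Vale.Agent.P313.UD

open Finset Sel

/-- The word `y` states an explicit question about a chain: a chain with states below `B`, driven
by fair coins, start `s0`, and the question whether it is in `u` after `t` coins with probability
at least `(k+1)/K` or at most `k/K`. -/
def ChainQuery (y : List Bool) : Prop :=
  ∃ (B : ℕ) (cs : ℕ → ℕ → ℕ) (s0 K t u k : ℕ), (∀ v < B, ∀ b < 2, cs v b < B) ∧ s0 < B ∧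
    t ≤ B ∧ u < B ∧ k < K ∧ K ≤ B ∧ y = qw B cs s0 K t u k

theorem qs_query {M : RTM} {c : ℕ}
    (hM : M.Bounded (fun n => (n + 2) ^ c) (fun n => c * Nat.log 2 (n + 2)))
    {x y : List Bool} (hy : y ∈ Qs M c x) : ChainQuery y := by
  obtain ⟨t, ht, u, hu, j, hj, rfl⟩ := hy
  have hVK := cV_le_cK (M := M) (c := c) x
  have hTK := sT_le_cK (M := M) (c := c) x
  exact ⟨cK M c x, cC M c x, cS M c x, cK M c x, t, u, j, cC_closed hM x hVK,
    (cS_lt hM x).trans_le hVK, ht.trans hTK, hu.trans_le hVK, hj, le_rfl, rfl⟩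

section

variable (hV : WordSpec) (hU1 : UsimSpec) (hU2 : UsimLF) (hS : ChkSound)
  (hC : ChkComplete) (hL : ChkLF) {R : RTM} {c0 : ℕ} (hR : WalkOk R c0)
  (hRb : R.Bounded (fun n => (n + 2) ^ c0) (fun n => c0 * Nat.log 2 (n + 2)))
  {f : ℕ → ℝ} (hf : ∀ n : ℕ, Real.logb 2 (n + 2) ≤ f n) (hfb : Fallback f)

include hV hU1 hU2 hS hC hL hR hRb hf hfb

/-- The first part, with the form of the queries. -/
theorem part1q {M : RTM} {c : ℕ}
    (hM : M.Bounded (fun n => (n + 2) ^ c) (fun n => c * Nat.log 2 (n + 2))) :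
    ∃ (D : RTM) (A : Set (List Bool)) (Q : List Bool → Set (List Bool)) (d : ℕ),
      (∃ e : ℝ, D.Decides A (fun n => (2 : ℝ) ^ (e * f n)) (fun n => e * f n)) ∧
      (∀ x : List Bool,
        (2 / 3 ≤ M.probAt x true ((x.length + 2) ^ c) 0 M.init → x ∈ A) ∧
        (M.probAt x true ((x.length + 2) ^ c) 0 M.init ≤ 1 / 3 → x ∉ A)) ∧
      (∀ x, ∀ y ∈ Q x, ChainQuery y ∧ y.length ≤ (x.length + 2) ^ d) ∧
      (∀ D' : RTM, D'.Deterministic → ∃ e : ℕ, ∀ (x : List Bool) (s : ℕ),
        ((∀ y ∈ Q x, SolvesFor D' R c0 y y s) ∨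
          ∃ α : List Bool, α.length ≤ s ∧ ∀ y ∈ Q x, SolvesFor D' R c0 y (adv α y) s) →
        ∀ ω : ℕ → Bool,
          (∀ t, 2 ^ (e * (s + Nat.log 2 (x.length + 2))) ≤ t →
            (x ∈ A → D.verdict (D.run x ω t).state = some true) ∧
            (x ∉ A → D.verdict (D.run x ω t).state = some false)) ∧
          ∀ t i, ((D.run x ω t).work i).cells ≤ e * (s + Nat.log 2 (x.length + 2))) ∧
      (∀ S : ℕ → ℝ, Nice S → PromiseBPLIn S ∨ PromiseBPLInAdvice S →
        ∃ e : ℝ, D.Decides A (fun n => (2 : ℝ) ^ (e * S n)) (fun n => e * S n)) := by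
  obtain ⟨A4, D4, e4, hd4, hp4⟩ := hfb M c hM
  obtain ⟨D, A, hD, hA, ⟨e1, he1⟩, hopt⟩ := core2 hV hU1 hU2 hS hC hL hR hM hd4.1
    (fun x => by
      obtain ⟨r, hr, hh⟩ := halts_of_decides hd4 x
      refine ⟨r, _, hh, fun h => hr.2 ((hp4 x).1 h), fun h => ?_⟩
      cases hrr : r
      · rfl
      · exact absurd (hr.1 hrr) ((hp4 x).2 h))
  obtain ⟨d, hd⟩ := wlen_pb M c
  refine ⟨D, A, Qs M c, d, ?_, hA,
    fun x y hy => ⟨qs_query hM hy, (Qs_len hV hy).trans_le (hd x)⟩, ?_, ?_⟩
  · -- the fallback bound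
    refine ⟨e1 * (|e4| + 1), decides_of_done hD (fun x => ?_)⟩
    obtain ⟨r, -, hh⟩ := halts_of_decides hd4 x
    obtain ⟨r', hr', hdone⟩ := he1 x r _ hh
    refine ⟨r', _, hr', hdone, ?_⟩
    have h1 : (1 : ℝ) ≤ f x.length := (one_le_logb _).trans (hf _)
    have h2 : ((⌊e4 * f x.length⌋₊ : ℕ) : ℝ) ≤ |e4| * f x.length := by
      rcases le_total 0 (e4 * f x.length) with h | h
      · exact (Nat.floor_le h).trans (mul_le_mul_of_nonneg_right (le_abs_self _) (by linarith))
      · rw [Nat.floor_of_nonpos h, Nat.cast_zero]; positivity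
    have h3 := (natlog_le_logb x.length).trans (hf x.length)
    push_cast
    calc (e1 : ℝ) * (((⌊e4 * f x.length⌋₊ : ℕ) : ℝ) + (Nat.log 2 (x.length + 2) : ℝ))
        ≤ e1 * (|e4| * f x.length + f x.length) :=
          mul_le_mul_of_nonneg_left (add_le_add h2 h3) (Nat.cast_nonneg _)
      _ = e1 * (|e4| + 1) * f x.length := by ring
  · -- optimality
    intro D' hD'
    obtain ⟨e, he⟩ := hopt D' hD'
    refine ⟨e, fun x s hq ω => ?_⟩
    have hex : ∃ r' : Bool, (r' = true ↔ x ∈ A) ∧
        DoneIn D x r' (e * (s + Nat.log 2 (x.length + 2))) := by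
      rcases hq with hq | ⟨α, hα, hq⟩
      · exact he x s 0 0 (by omega) (by positivity) (fun y hy => hq y hy)
      · obtain ⟨a, ha, haw⟩ := exists_aw α
        refine he x s (α.length + 1) a (by omega)
          (ha.trans_le (Nat.pow_le_pow_right (by norm_num) hα)) (fun y hy => ?_)
        have : xw (α.length + 1) a y = adv α y := by
          unfold xw
          rw [if_neg (by omega), Nat.add_sub_cancel, haw]
        rw [this]
        exact hq y hy
    obtain ⟨r', hr', hdone⟩ := hex
    refine ⟨fun t ht => ?_, (hdone ω).2⟩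
    have h2 := (hdone ω).1 t ht
    refine ⟨fun hx => ?_, fun hx => ?_⟩
    · rw [h2, hr'.2 hx]
    · have : r' = false := by
        cases hrr : r'
        · rfl
        · exact absurd (hr'.1 hrr) hx
      rw [h2, this]
  · -- conditional bounds
    intro S hSn hPS
    -- one machine, one constant, both cases
    obtain ⟨D', e', hD', hsol⟩ : ∃ (D' : RTM) (e' : ℝ), D'.Deterministic ∧
        ∀ (m n : ℕ), m ≤ (n + 2) ^ d → ∃ (l a : ℕ), (l : ℝ) ≤ |e'| * S m + 1 ∧
          a < 2 ^ (l - 1) ∧ ∀ y : List Bool, y.length = m → ∃ r : Bool,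
          (∀ ω : ℕ → Bool, (∃ t, D'.verdict (D'.run (xw l a y) ω t).state = some r) ∧
            ∀ t i, (((D'.run (xw l a y) ω t).work i).cells : ℝ) ≤ e' * S m) ∧
          (2 / 3 ≤ R.probAt y true ((y.length + 2) ^ c0) 0 R.init → r = true) ∧
          (R.probAt y true ((y.length + 2) ^ c0) 0 R.init ≤ 1 / 3 → r = false) := by
      rcases hPS with hPS | hPS
      · obtain ⟨D', e', hD', hsol⟩ := hPS R c0 hRb
        refine ⟨D', e', hD', fun m n _ => ⟨0, 0, ?_, by positivity, fun y hy => ?_⟩⟩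
        · have := hSn.one_le m
          push_cast
          positivity
        · subst hy
          exact hsol y
      · obtain ⟨D', e', hD', hsol⟩ := hPS R c0 hRb
        refine ⟨D', e', hD', fun m n _ => ?_⟩
        obtain ⟨α, hα, h⟩ := hsol m
        obtain ⟨a, ha, haw⟩ := exists_aw α
        refine ⟨α.length + 1, a, ?_, by simpa using ha, fun y hy => ?_⟩
        · have h1 := hSn.one_le m
          have h2 : e' * S m ≤ |e'| * S m :=
            mul_le_mul_of_nonneg_right (le_abs_self _) (by linarith)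
          push_cast
          linarith
        · have : xw (α.length + 1) a y = adv α y := by
            unfold xw
            rw [if_neg (by omega), Nat.add_sub_cancel, haw]
          rw [this]
          exact h y hy
    obtain ⟨e, he⟩ := hopt D' hD'
    obtain ⟨C, hCp⟩ := hSn.poly d
    have hCp' : ∀ n : ℕ, S ((n + 2) ^ d) ≤ |C| * S n := fun n => (hCp n).trans
      (mul_le_mul_of_nonneg_right (le_abs_self _) (by linarith [hSn.one_le n]))
    refine ⟨e * (|e'| * |C| + 1), decides_of_done hD (fun x => ?_)⟩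
    have h1 := hSn.one_le x.length
    have hb : 0 ≤ |e'| * |C| * S x.length := by positivity
    set m := wlen (cK M c x) with hm
    obtain ⟨l, a, hl, ha, hy⟩ := hsol m x.length (hd x)
    have hSm : S m ≤ |C| * S x.length := (hSn.mono (hd x)).trans (hCp' _)
    have hS1 := hSn.one_le m
    have hes : |e'| * S m ≤ |e'| * |C| * S x.length := by
      rw [mul_assoc]; exact mul_le_mul_of_nonneg_left hSm (abs_nonneg _)
    set s := ⌊|e'| * |C| * S x.length⌋₊ with hs
    have hl1 : l ≤ s + 1 := by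
      rcases Nat.eq_zero_or_pos l with h0 | h0
      · omega
      · have h5 : ((l - 1 : ℕ) : ℝ) ≤ |e'| * |C| * S x.length := by
          rw [Nat.cast_sub (by omega)]
          push_cast
          linarith
        have h6 := Nat.le_floor h5
        omega
    have ha1 : a < 2 ^ s := ha.trans_le (Nat.pow_le_pow_right (by norm_num) (by omega))
    obtain ⟨r', hr', hdone⟩ := he x s l a hl1 ha1 (fun y hyQ => by
      obtain ⟨r, hr1, hr2, hr3⟩ := hy y (Qs_len hV hyQ)
      refine ⟨r, fun ω => ⟨(hr1 ω).1, fun t i => Nat.le_floor ?_⟩, hr2, hr3⟩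
      have h2 := (hr1 ω).2 t i
      refine h2.trans (le_trans ?_ hes)
      exact mul_le_mul_of_nonneg_right (le_abs_self _) (by linarith))
    refine ⟨r', _, hr', hdone, ?_⟩
    have h2 := Nat.floor_le hb
    have h3 := (natlog_le_logb x.length).trans (hSn.log_le x.length)
    push_cast
    calc (e : ℝ) * (((s : ℕ) : ℝ) + (Nat.log 2 (x.length + 2) : ℝ))
        ≤ e * (|e'| * |C| * S x.length + S x.length) :=
          mul_le_mul_of_nonneg_left (add_le_add h2 h3) (Nat.cast_nonneg _)
      _ = e * (|e'| * |C| + 1) * S x.length := by ring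

end

end Vale.Agent.P313.UD
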