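import Vale.Agent.P313.H463.UD.Sim

/-!
Universal derandomization: the machine for a given randomized machine.
-/

namespace Vale.Agent.P313.UD

open Finset Sel

/-- `D` solves the promise problem of the randomized machine `R` (with exponent `c` for its
running time) on the input `y`, within `s` cells. -/
def SolvesOn (D R : RTM) (c : ℕ) (y : List Bool) (s : ℕ) : Prop :=
  ∃ r : Bool, HaltsIn D y r s ∧
    (2 / 3 ≤ R.probAt y true ((y.length + 2) ^ c) 0 R.init → r = true) ∧
    (R.probAt y true ((y.length + 2) ^ c) 0 R.init ≤ 1 / 3 → r = false)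

/-- What `WalkMachine` says about a machine. -/
def WalkOk (R : RTM) (c : ℕ) : Prop :=
  ∀ (B : ℕ) (cs : ℕ → ℕ → ℕ) (s0 K t u k : ℕ), (∀ v < B, ∀ b < 2, cs v b < B) → s0 < B →
    t ≤ B → u < B → k < K → K ≤ B →
    (((k : ℚ) + 1) / K ≤ hit (toB cs) u t s0 →
      2 / 3 ≤ R.probAt (qw B cs s0 K t u k) true (((qw B cs s0 K t u k).length + 2) ^ c) 0
        R.init) ∧
    (hit (toB cs) u t s0 ≤ (k : ℚ) / K →
      R.probAt (qw B cs s0 K t u k) true (((qw B cs s0 K t u k).length + 2) ^ c) 0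
        R.init ≤ 1 / 3)

section chain

variable (M : RTM) (c : ℕ)

/-- Number of states. -/
noncomputable def cV (x : List Bool) : ℕ := sW M c x ^ M.nd + 3

/-- The denominator of the thresholds, also the parameter of the words. -/
noncomputable def cK (x : List Bool) : ℕ := 12 * (sT c x + 1) * (cV M c x + 1) ^ 2

/-- The chain. -/
noncomputable def cC (x : List Bool) : ℕ → ℕ → ℕ := fun v b => M.csN x (sW M c x) (sT c x) v b

/-- Its start. -/
noncomputable def cS (x : List Bool) : ℕ := M.startN x (sW M c x) (sT c x)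

theorem toB_cC (x : List Bool) : toB (cC M c x) = M.cs x (sW M c x) (sT c x) := rfl

variable {M c}

theorem cV_le_cK (x : List Bool) : cV M c x ≤ cK M c x := by
  unfold cK
  nlinarith [Nat.zero_le (sT c x * (cV M c x + 1) ^ 2), Nat.zero_le (cV M c x ^ 2)]

theorem sT_le_cK (x : List Bool) : sT c x ≤ cK M c x := by
  unfold cK
  have h1 : 1 ≤ (cV M c x + 1) ^ 2 := Nat.one_le_pow _ _ (by omega)
  nlinarith [Nat.mul_le_mul_left (12 * (sT c x + 1)) h1]

theorem cV_pos (x : List Bool) : 3 ≤ cV M c x := by unfold cV; omega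

theorem cK_pos (x : List Bool) : 0 < cK M c x := by
  have := cV_le_cK (M := M) (c := c) x
  have := cV_pos (M := M) (c := c) x
  omega

variable (hM : M.Bounded (fun n => (n + 2) ^ c) (fun n => c * Nat.log 2 (n + 2)))

include hM

theorem cC_closed (x : List Bool) {n : ℕ} (hn : cV M c x ≤ n) :
    ∀ v < n, ∀ b < 2, cC M c x v b < n := by
  intro v hv b hb
  have h := (CT.chain_ok hM x (n := n + 1) (by unfold cV at hn; omega)).closed v (by omega)
  have h0 := h false
  have h1 := h true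
  unfold RTM.cs at h0 h1
  unfold cC
  interval_cases b
  · simpa using h0
  · simpa using h1

theorem cS_lt (x : List Bool) : cS M c x < cV M c x := by
  have h := (CT.chain_ok hM x (n := cV M c x) le_rfl).start_lt
  unfold cS
  omega

theorem hit_eq_prob (x : List Bool) : hit (toB (cC M c x)) 0 (sT c x) (cS M c x) =
    M.probAt x true ((x.length + 2) ^ c) 0 M.init := by
  have h := CT.chain_prob hM x
  rw [CT.hitR_eq] at h
  exact_mod_cast h

end chain

section lf

variable (M : RTM) (c : ℕ)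

theorem lfx_cV : LFx (cV M c) := ((lfx_W (M := M) (c := c)).powConst M.nd).add (LF.const 3)

theorem lfx_cK : LFx (cK M c) :=
  ((LF.const 12).mul ((lfx_T (c := c)).add (LF.const 1))).mul
    (((lfx_cV M c).add (LF.const 1)).powConst 2)

theorem lf_cC {k : ℕ} {v b : Fn k} (hv : LF v) (hb : LF b) :
    LF (fun x a => cC M c x (v x a) (b x a)) := CT.lf_cs M c hv hb

theorem lfx_cS : LFx (cS M c) := CT.lfx_start M c

/-- Rows of a query. -/
theorem lf_rows {k : ℕ} {t u j r : Fn k} (ht : LF t) (hu : LF u) (hj : LF j) (hr : LF r) :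
    LF (fun x a => rows (cC M c x) (cS M c x) (cK M c x) (t x a) (u x a) (j x a) (r x a)) := by
  unfold rows
  have h1 : LF (fun x a => cC M c x ((r x a - 5) / 2) ((r x a - 5) % 2)) :=
    lf_cC M c ((hr.sub (LF.const 5)).div (LF.const 2)) ((hr.sub (LF.const 5)).mod (LF.const 2))
  exact LF.ite (LFP.eq hr (LF.const 0)) ((lfx_cS M c).lf k)
    (LF.ite (LFP.eq hr (LF.const 1)) ht (LF.ite (LFP.eq hr (LF.const 2)) hu
      (LF.ite (LFP.eq hr (LF.const 3)) hj (LF.ite (LFP.eq hr (LF.const 4))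
        ((lfx_cK M c).lf k) h1))))

/-- The symbols of a query word. -/
theorem lf_qsy (hV : WordSpec) {k : ℕ} {t u j p : Fn k} (ht : LF t) (hu : LF u) (hj : LF j)
    (hp : LF p) :
    LF (fun x a => vsy (cK M c x)
      (rows (cC M c x) (cS M c x) (cK M c x) (t x a) (u x a) (j x a)) (p x a)) := by
  have h1 := hV.2.2.1 k (fun x _ => cK M c x) p
    (fun x b => rows (cC M c x) (cS M c x) (cK M c x) (t x (Fin.tail b)) (u x (Fin.tail b))
      (j x (Fin.tail b)) (b 0)) ((lfx_cK M c).lf k) hp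
    (lf_rows M c ht.weak hu.weak hj.weak (LF.proj 0))
  refine h1.congr (fun x a => ?_)
  simp only [Fin.tail_cons, Fin.cons_zero]

end lf

/-- Parameters from an index. -/
def ipar (N idx i : ℕ) : ℕ := if i < 8 then idx / (N + 1) ^ i % (N + 1) else 0

/-- The index of given parameters. -/
def pidx (N : ℕ) (par : ℕ → ℕ) : ℕ := ∑ i ∈ range 8, min (par i) N * (N + 1) ^ i

theorem pidx_lt (N : ℕ) (par : ℕ → ℕ) : pidx N par < (N + 1) ^ 8 :=
  sum_lt_pow (fun i => min (par i) N) (fun i => by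
    have := min_le_right (par i) N; omega) 8

theorem ipar_pidx {N : ℕ} {par : ℕ → ℕ} (h : ∀ i, par i ≤ N) (h8 : ∀ i, 8 ≤ i → par i = 0) :
    ipar N (pidx N par) = par := by
  funext i
  unfold ipar
  split_ifs with hi
  · unfold pidx
    rw [digit_sum (by omega) (fun i => min (par i) N) (fun i => by
      have := min_le_right (par i) N; omega) 8 i hi]
    exact min_eq_left (h i)
  · exact (h8 i (by omega)).symm

section machine

variable (M : RTM) (c : ℕ)

/-- The answer to a query by machine `idx` with resources `N`. -/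
noncomputable def qa (x : List Bool) (N idx t u j : ℕ) : ℕ :=
  usim (vsy (cK M c x) (rows (cC M c x) (cS M c x) (cK M c x) t u j)) (wlen (cK M c x))
    (ipar N idx) N

/-- The check of machine `idx`. -/
def Ck (x : List Bool) (N idx : ℕ) : Prop :=
  Chk (qa M c x N idx) (cC M c x) (cV M c x) (cS M c x) (sT c x) (cK M c x)

theorem lf_wlen {k : ℕ} {B : Fn k} (hB : LF B) : LF (fun x a => wlen (B x a)) := by
  unfold wlen
  exact (hB.add (LF.const 1)).add (((LF.const 5).add ((LF.const 2).mul hB)).mul hB)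

theorem lf_ipar {k : ℕ} {N idx : Fn k} (hN : LF N) (hi : LF idx) (i : ℕ) :
    LF (fun x a => ipar (N x a) (idx x a) i) := by
  unfold ipar
  by_cases h : i < 8
  · refine (((hi.div (hN.succ.powConst i))).mod hN.succ).congr (fun x a => by rw [if_pos h])
  · exact (LF.const 0).congr (fun x a => by rw [if_neg h])

theorem lf_qa (hV : WordSpec) (hU : UsimLF) {k : ℕ} {N idx t u j : Fn k} (hN : LF N)
    (hi : LF idx) (ht : LF t) (hu : LF u) (hj : LF j) :
    LF (fun x a => qa M c x (N x a) (idx x a) (t x a) (u x a) (j x a)) := by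
  have h1 := hU k (fun x b => vsy (cK M c x)
      (rows (cC M c x) (cS M c x) (cK M c x) (t x (Fin.tail b)) (u x (Fin.tail b))
        (j x (Fin.tail b))) (b 0))
    (fun x _ => wlen (cK M c x)) N (fun i x a => ipar (N x a) (idx x a) i)
    (lf_qsy M c hV ht.weak hu.weak hj.weak (LF.proj 0)) (lf_wlen ((lfx_cK M c).lf k)) hN
    (fun i => lf_ipar hN hi i)
  refine h1.congr (fun x a => ?_)
  simp only [Fin.tail_cons, Fin.cons_zero]
  rfl

/-- The two tests: some machine passes; some machine passes and says yes. -/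
theorem lfp_ck (hV : WordSpec) (hU : UsimLF) (hL : ChkLF) :
    LFP (fun x a => ¬ ∀ idx < (a 0 + 1) ^ 8, ¬ Ck M c x (a 0) idx :
      List Bool → (Fin 1 → ℕ) → Prop) ∧
    LFP (fun x a => ¬ ∀ idx < (a 0 + 1) ^ 8, ¬ (Ck M c x (a 0) idx ∧
      cK M c x ≤ 2 * est (qa M c x (a 0) idx) (cK M c x) (sT c x) 0) :
      List Bool → (Fin 1 → ℕ) → Prop) := by
  -- variables: `b 0 = idx`, `b 1 = N`
  have hq : LF (fun x b => qa M c x (b 4) (b 3) (b 2) (b 1) (b 0) : Fn 5) :=
    lf_qa M c hV hU (LF.proj 4) (LF.proj 3) (LF.proj 2) (LF.proj 1) (LF.proj 0)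
  have hc : LF (fun x b => cC M c x (b 1) (b 0) : Fn 4) := lf_cC M c (LF.proj 1) (LF.proj 0)
  obtain ⟨h1, h2⟩ := hL 2 (fun x b => qa M c x (b 4) (b 3) (b 2) (b 1) (b 0))
    (fun x b => cC M c x (b 1) (b 0)) (fun x _ => cV M c x) (fun x _ => cS M c x)
    (fun x _ => sT c x) (fun x _ => cK M c x) hq hc ((lfx_cV M c).lf 2) ((lfx_cS M c).lf 2)
    ((lfx_T (c := c)).lf 2) ((lfx_cK M c).lf 2)
  have e1 : ∀ (x : List Bool) (a : Fin 2 → ℕ),
      (fun t u j => qa M c x ((Fin.cons j (Fin.cons u (Fin.cons t a)) : Fin 5 → ℕ) 4)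
        ((Fin.cons j (Fin.cons u (Fin.cons t a)) : Fin 5 → ℕ) 3)
        ((Fin.cons j (Fin.cons u (Fin.cons t a)) : Fin 5 → ℕ) 2)
        ((Fin.cons j (Fin.cons u (Fin.cons t a)) : Fin 5 → ℕ) 1)
        ((Fin.cons j (Fin.cons u (Fin.cons t a)) : Fin 5 → ℕ) 0)) = qa M c x (a 1) (a 0) :=
    fun x a => rfl
  have e2 : ∀ (x : List Bool) (a : Fin 2 → ℕ),
      (fun v b => cC M c x ((Fin.cons b (Fin.cons v a) : Fin 4 → ℕ) 1)
        ((Fin.cons b (Fin.cons v a) : Fin 4 → ℕ) 0)) = cC M c x := fun x a => rfl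
  have h3 : LFP (fun x b => Ck M c x (b 1) (b 0) : List Bool → (Fin 2 → ℕ) → Prop) := by
    refine h1.congr (fun x a => ?_)
    rw [e1, e2]
    rfl
  have h4 : LF (fun x b => est (qa M c x (b 1) (b 0)) (cK M c x) (sT c x) 0 : Fn 2) := by
    refine h2.congr (fun x a => ?_)
    rw [e1]
  have h5 : LFP (fun x b => cK M c x ≤ 2 * est (qa M c x (b 1) (b 0)) (cK M c x) (sT c x) 0 :
      List Bool → (Fin 2 → ℕ) → Prop) :=
    LFP.le ((lfx_cK M c).lf 2) ((LF.const 2).mul h4)
  have hn : LF (fun _ a => (a 0 + 1) ^ 8 : Fn 1) := (LF.proj 0).succ.powConst 8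
  refine ⟨((LFP.all (k := 1) h3.not hn).not).congr (fun x a => ?_),
    ((LFP.all (k := 1) (h3.and h5).not hn).not).congr (fun x a => ?_)⟩
  · exact Iff.rfl
  · exact Iff.rfl

end machine

end Vale.Agent.P313.UD
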