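import Vale.Agent.P313.H463.UD.Defs

/-!
Universal derandomization: resources, the search shell, simulation of a fixed machine.
-/

namespace Vale.Agent.P313.UD

open Finset

/-- `D` halts on `y` with verdict `r` and visits at most `s` cells of each tape. -/
def HaltsIn (D : RTM) (y : List Bool) (r : Bool) (s : ℕ) : Prop :=
  ∀ ω : ℕ → Bool, (∃ t0, D.verdict (D.run y ω t0).state = some r) ∧
    ∀ t i, ((D.run y ω t).work i).cells ≤ s

/-- Radix of the codes of configurations. -/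
def bW (e l s : ℕ) : ℕ := l + 2 + e ^ (s + 1)

/-- Resources. -/
def bN (e l s : ℕ) : ℕ := bW e l s ^ e + e + bW e l s

theorem add_le_mul {a b : ℕ} (ha : 1 ≤ a) (hb : 1 ≤ b) : a + b ≤ 2 * (a * b) := by nlinarith

theorem budget (e : ℕ) : ∃ C : ℕ, ∀ n l s,
    Nat.log 2 (n + bN e l s + 2) ≤ C * (s + Nat.log 2 (n + l + 2)) + C := by
  refine ⟨(e + 2) ^ 2 + 2, fun n l s => ?_⟩
  set Λ := Nat.log 2 (n + l + 2) with hΛ
  have h1 : n + l + 2 < 2 ^ (Λ + 1) := Nat.lt_pow_succ_log_self (by norm_num) _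
  have h2 : e ≤ 2 ^ e := Nat.lt_two_pow_self.le
  have h3 : e ^ (s + 1) ≤ 2 ^ (e * (s + 1)) := by
    rw [pow_mul]; exact Nat.pow_le_pow_left h2 _
  set a := Λ + 1 + e * (s + 1) + 1 with ha
  have h4 : bW e l s ≤ 2 ^ a := by
    unfold bW
    have h5 : 1 ≤ 2 ^ (Λ + 1) := Nat.one_le_two_pow
    have h6 : 1 ≤ 2 ^ (e * (s + 1)) := Nat.one_le_two_pow
    have h7 := add_le_mul h5 h6
    have h8 : 2 ^ a = 2 * (2 ^ (Λ + 1) * 2 ^ (e * (s + 1))) := by
      rw [ha, pow_succ, pow_add]; ring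
    omega
  have h5 : bW e l s ^ e ≤ 2 ^ (a * e) := by rw [pow_mul]; exact Nat.pow_le_pow_left h4 _
  have h6 : n + bN e l s + 2 ≤ 2 ^ (Λ + 1 + a * e + e + a + 3) := by
    unfold bN
    have g1 : 1 ≤ 2 ^ (Λ + 1) := Nat.one_le_two_pow
    have g2 : 1 ≤ 2 ^ (a * e) := Nat.one_le_two_pow
    have g3 : 1 ≤ 2 ^ e := Nat.one_le_two_pow
    have g4 : 1 ≤ 2 ^ a := Nat.one_le_two_pow
    have e1 := add_le_mul g1 g2
    have e2 := add_le_mul (Nat.mul_pos g1 g2) g3
    have e3 := add_le_mul (Nat.mul_pos (Nat.mul_pos g1 g2) g3) g4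
    have e4 : 2 ^ (Λ + 1 + a * e + e + a + 3) =
        8 * (2 ^ (Λ + 1) * 2 ^ (a * e) * 2 ^ e * 2 ^ a) := by
      rw [pow_add, pow_add, pow_add, pow_add]; ring
    have e5 : 2 ^ (Λ + 1) * 2 ^ (a * e) ≤ 2 ^ (Λ + 1) * 2 ^ (a * e) * 2 ^ e :=
      Nat.le_mul_of_pos_right _ g3
    have e6 : 2 ^ (Λ + 1) * 2 ^ (a * e) * 2 ^ e ≤ 2 ^ (Λ + 1) * 2 ^ (a * e) * 2 ^ e * 2 ^ a :=
      Nat.le_mul_of_pos_right _ g4
    omega
  have h7 : Nat.log 2 (n + bN e l s + 2) ≤ Λ + 1 + a * e + e + a + 3 := by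
    have := Nat.log_mono_right (b := 2) h6
    rwa [Nat.log_pow (by norm_num)] at this
  refine h7.trans ?_
  rw [ha]
  nlinarith [Nat.zero_le (Λ * e), Nat.zero_le (s * e), Nat.zero_le (s * e * e),
    Nat.zero_le (Λ * e * e)]

/-- The shell: the first resources for which the test succeeds. -/
theorem shell {F g : Fn 1} (hF : LF F) (hg : LF g) : ∃ (D : RTM) (e : ℕ), D.Deterministic ∧
    ∀ (x : List Bool) (N : ℕ), g x (fun _ => N) ≠ 0 → ∃ N1 ≤ N, g x (fun _ => N1) ≠ 0 ∧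
      ∀ ω, (∀ T, (x.length + N + 2) ^ e ≤ T →
        D.verdict (D.run x ω T).state = some (decide (F x (fun _ => N1) ≠ 0))) ∧
      ∀ t i, ((D.run x ω t).work i).cells ≤ e * Nat.log 2 (x.length + N + 2) + e := by
  classical
  obtain ⟨D, e, hD, h⟩ := TS.pad_machine hF hg
  refine ⟨D, e, hD, fun x N hN => ?_⟩
  have hex : ∃ N, g x (fun _ => N) ≠ 0 := ⟨N, hN⟩
  have hle : Nat.find hex ≤ N := Nat.find_min' hex hN
  refine ⟨Nat.find hex, hle, Nat.find_spec hex, fun ω => ?_⟩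
  obtain ⟨h1, h2⟩ := h x (Nat.find hex) (fun m hm => by
    have := Nat.find_min hex hm
    simpa using this) (Nat.find_spec hex) ω
  refine ⟨fun T hT => h1 T (le_trans (Nat.pow_le_pow_left (by omega) e) hT), fun t i => ?_⟩
  have h3 : Nat.log 2 (x.length + Nat.find hex + 2) ≤ Nat.log 2 (x.length + N + 2) :=
    Nat.log_mono_right (by omega)
  have h4 := Nat.mul_le_mul_left e h3
  have h5 := h2 t i
  omega

/-- The tests of the simulation of a fixed machine. -/
def Pg (sy : ℕ → ℕ) (n : ℕ) (par : ℕ → ℕ) (e N : ℕ) : Prop :=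
  e ≤ N ∧ ¬ ∀ W < N + 1, usim sy n (wpar par W) N = 0

/-- The tests of the simulation of a fixed machine. -/
def Pf (sy : ℕ → ℕ) (n : ℕ) (par : ℕ → ℕ) (e N : ℕ) : Prop :=
  e ≤ N ∧ ¬ ∀ W < N + 1, ¬ usim sy n (wpar par W) N = 2

/-- What `UsimSpec` says about a machine. -/
def SimOk (D : RTM) (par : ℕ → ℕ) (e : ℕ) : Prop :=
  (∀ i, par i ≤ e) ∧
    ∀ (y : List Bool) (ω : ℕ → Bool) (t0 : ℕ) (r : Bool),
      D.verdict (D.run y ω t0).state = some r → ∀ W N, e ≤ N →
      (usim (fun p => syc (inSym y p)) y.length (wpar par W) N = 0 ∨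
        usim (fun p => syc (inSym y p)) y.length (wpar par W) N = cd r) ∧
      ∀ s, (∀ t i, ((D.run y ω t).work i).cells ≤ s) → y.length + 2 + e ^ (s + 1) ≤ W →
        W ^ e ≤ N → usim (fun p => syc (inSym y p)) y.length (wpar par W) N = cd r

theorem cd_ne_zero (r : Bool) : cd r ≠ 0 := by cases r <;> simp [cd]

theorem cd_eq_two {r : Bool} : cd r = 2 ↔ r = true := by cases r <;> simp [cd]

theorem bN_ge (e l s : ℕ) : e ≤ bN e l s ∧ bW e l s ≤ bN e l s ∧ bW e l s ^ e ≤ bN e l s := by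
  unfold bN; omega

section fixed

variable {D : RTM} {par : ℕ → ℕ} {e : ℕ} (hS : SimOk D par e) {y : List Bool} {r : Bool} {s : ℕ}
  (hy : HaltsIn D y r s)

include hS hy

theorem pf_sound {N : ℕ} (h : Pf (fun p => syc (inSym y p)) y.length par e N) : r = true := by
  obtain ⟨h1, h2⟩ := h
  push Not at h2
  obtain ⟨W, hW, h3⟩ := h2
  obtain ⟨t0, h4⟩ := (hy (fun _ => false)).1
  rcases (hS.2 y _ t0 r h4 W N h1).1 with h5 | h5
  · rw [h5] at h3; exact absurd h3 (by norm_num)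
  · rw [h5] at h3; exact cd_eq_two.1 h3

theorem pg_sound {N : ℕ} (h : Pg (fun p => syc (inSym y p)) y.length par e N) (hr : r = true) :
    Pf (fun p => syc (inSym y p)) y.length par e N := by
  obtain ⟨h1, h2⟩ := h
  push Not at h2
  obtain ⟨W, hW, h3⟩ := h2
  obtain ⟨t0, h4⟩ := (hy (fun _ => false)).1
  refine ⟨h1, fun h => h W hW ?_⟩
  rcases (hS.2 y _ t0 r h4 W N h1).1 with h5 | h5
  · exact absurd h5 h3
  · rw [h5]; exact cd_eq_two.2 hr

theorem usim_full : usim (fun p => syc (inSym y p)) y.length (wpar par (bW e y.length s))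
    (bN e y.length s) = cd r := by
  obtain ⟨g1, g2, g3⟩ := bN_ge e y.length s
  obtain ⟨t0, h4⟩ := (hy (fun _ => false)).1
  exact (hS.2 y _ t0 r h4 _ _ g1).2 s (hy (fun _ => false)).2 le_rfl g3

theorem pg_full : Pg (fun p => syc (inSym y p)) y.length par e (bN e y.length s) := by
  obtain ⟨g1, g2, g3⟩ := bN_ge e y.length s
  refine ⟨g1, fun h => ?_⟩
  have := h (bW e y.length s) (by omega)
  rw [usim_full hS hy] at this
  exact cd_ne_zero r this

end fixed

theorem lf_wpar {k : ℕ} (par : ℕ → ℕ) {W : Fn k} (hW : LF W) (i : ℕ) :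
    LF (fun x a => wpar par (W x a) i) := by
  unfold wpar
  by_cases h : i = 7
  · exact hW.congr (fun x a => by rw [if_pos h])
  · exact (LF.const (par i)).congr (fun x a => by rw [if_neg h])

/-- The tests are in `LF`. -/
theorem lfp_pg (hU : UsimLF) {k : ℕ} {sy : Fn (k + 1)} {n N : Fn k} (par : ℕ → ℕ) (e : ℕ)
    (hsy : LF sy) (hn : LF n) (hN : LF N) (c : ℕ) :
    LFP (fun x a => e ≤ N x a ∧ ¬ ∀ W < N x a + 1,
      usim (fun p => sy x (Fin.cons p a)) (n x a) (wpar par W) (N x a) = c) ∧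
    LFP (fun x a => e ≤ N x a ∧ ¬ ∀ W < N x a + 1,
      ¬ usim (fun p => sy x (Fin.cons p a)) (n x a) (wpar par W) (N x a) = c) := by
  have h1 : LF (fun x b => usim (fun p => sy x (Fin.cons p (Fin.tail b))) (n x (Fin.tail b))
      (wpar par (b 0)) (N x (Fin.tail b)) : Fn (k + 1)) := by
    have h2 : LF (fun x b => sy x (Fin.cons (b 0) (Fin.tail (Fin.tail b))) : Fn (k + 2)) := by
      have h3 := LF.comp (k := k + 2) (m := k + 1) (f := sy)
        (g := Fin.cons (fun _ b => b 0) (fun i => fun _ b => b i.succ.succ)) hsy (fun i => by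
          refine Fin.cases ?_ (fun j => ?_) i
          · simpa using LF.proj (k := k + 2) 0
          · simpa using LF.proj (k := k + 2) j.succ.succ)
      refine h3.congr (fun x b => ?_)
      congr 1
      funext i
      refine Fin.cases ?_ (fun j => ?_) i
      · simp
      · simp [Fin.tail]
    have h4 := hU (k + 1) (fun x b => sy x (Fin.cons (b 0) (Fin.tail (Fin.tail b))))
      (fun x b => n x (Fin.tail b)) (fun x b => N x (Fin.tail b))
      (fun i x b => wpar par (b 0) i) h2 hn.weak hN.weak (fun i => lf_wpar par (LF.proj 0) i)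
    refine h4.congr (fun x b => ?_)
    simp only [Fin.cons_zero, Fin.tail_cons]
  have h5 : LFP (fun x b => usim (fun p => sy x (Fin.cons p (Fin.tail b))) (n x (Fin.tail b))
      (wpar par (b 0)) (N x (Fin.tail b)) = c : List Bool → (Fin (k + 1) → ℕ) → Prop) :=
    LFP.eq h1 (LF.const c)
  have hle : LFP (fun x a => e ≤ N x a) := LFP.le (LF.const e) hN
  refine ⟨hle.and ((LFP.all h5 hN.succ).not.congr (fun x a => ?_)),
    hle.and ((LFP.all h5.not hN.succ).not.congr (fun x a => ?_))⟩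
  · simp only [Fin.cons_zero, Fin.tail_cons]
  · simp only [Fin.cons_zero, Fin.tail_cons]

end Vale.Agent.P313.UD
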